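import Crest.Agent.X212.Rsv69.P1
import Crest.Agent.X212.Dec35.Lo

/-! Row 212, RESP (helper69): the neck terms only see a window, up to exponentially small tails. -/

set_option autoImplicit false
set_option linter.unusedSectionVars false
noncomputable section
open scoped Manifold ContDiff Topology InnerProductSpace
open MeasureTheory Set Function Filter Real

namespace Crest.Agent.X212.Rsv69
open Rsp69
open An Sob92 Wz78 Dgr80 Nd18 Nka63
open Dec35 (cf Cz Bnd)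
open Pj41 (stab Emb LitAt)

variable {E3 : Type} [NormedAddCommGroup E3] [NormedSpace ℝ E3] [FiniteDimensional ℝ E3]
  [MeasurableSpace E3] [BorelSpace E3]
  {H3 : Type} [TopologicalSpace H3] {I3 : ModelWithCorners ℝ E3 H3} [I3.Boundaryless]
  {Y : Type} [TopologicalSpace Y] [ChartedSpace H3 Y] [IsManifold I3 ∞ Y] [T2Space Y]
  [MeasurableSpace Y] [BorelSpace Y] [SecondCountableTopology Y] [CompactSpace Y]
  {κ : Type} [Fintype κ] {lam : Type} [Fintype lam] {D : YD I3 Y κ lam} {β : YC Y κ lam}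
  {N : ND Y lam}

variable (D β) in
/-- a neck and a variation on the cylinder which agree on a window -/
structure Dl (k : ℕ) (C S : ℝ) : Type 1 where
  X : Mf (Option κ) lam
  K : Nk D X.B X.G
  r : ℕ
  c : Cfg X.M (Option κ) lam r
  a : Cz β
  i : CL β.m.V c.m.V
  w : X.M → X.M → ℝ
  t : ℝ
  R : ℝ
  R0 : 0 ≤ R
  gd : Dgr80.Gd X.B X.G c
  bnd : Bnd K c w S C
  vb : Dec35.Vb D β a
  cb : D.Z.CB k a C
  emb : Emb β.m.J c.m.J i
  sub : Icc (t - R) (t + R) ⊆ Dp K.p K.q 0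
  lit : ∀ z : Y × ℝ, |z.2 - t| ≤ R → LitAt c (cf (cy β) a) i (K.ψ z) z

variable {k : ℕ} {C S : ℝ}

namespace Dl
variable (d : Dl D β k C S)

/-- the two manifolds -/
@[reducible] def S' (i : Bool) : Mf (Option κ) lam := Bool.rec ⟨D.B, D.G⟩ d.X i

/-- the two necks -/
@[reducible] def K' (i : Bool) : Nk D (d.S' i).B (d.S' i).G :=
  Bool.rec (motive := fun i => Nk D (d.S' i).B (d.S' i).G) D.nk d.K i

/-- the configuration on the cylinder -/
abbrev c0 : Cfg (Y × ℝ) (Option κ) lam 0 := stab (cf (cy β) d.a) d.c.m.J d.i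

/-- pairs of sections -/
@[reducible] def two {V : Type} (u : Y × ℝ → V) (v : d.X.M → V) (i : Bool) : (d.S' i).M → V :=
  Bool.rec (motive := fun i => (d.S' i).M → V) u v i

theorem sub' (i : Bool) (L : ℝ) :
    Dp (some (d.t - d.R)) (some (d.t + d.R)) L ⊆ Dp (d.K' i).p (d.K' i).q L := fun s hs => by
  cases i
  · exact ⟨fun _ h => (nomatch h), fun _ h => (nomatch h)⟩
  have := d.R0
  have h1 := hs.1 _ rfl
  have h2 := hs.2 _ rfl
  exact ⟨fun a ha => by linarith [(d.sub (left_mem_Icc.2 (by linarith))).1 a ha],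
    fun a ha => by linarith [(d.sub (right_mem_Icc.2 (by linarith))).2 a ha]⟩

end Dl

variable (hD : D.OK) (hN : N.OK D) (β k C S)

/-- the pairs (cylinder, neck) -/
@[reducible] def npL : NP D (Dl D β k C S) where
  l := ⊤
  p d := some (d.t - d.R)
  q d := some (d.t + d.R)
  C := (exists_C hD).choose
  S := Dl.S'
  K := Dl.K'
  γ := gm N
  ρ d s := exp (-(gm N / 8) * d.R) * exp (gm N / 8 * |s - d.t|)
  L := max S ((exists_C hD).choose 0)
  hD := hD
  tz := (exists_C hD).choose_spec.1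
  cs := (exists_C hD).choose_spec.2
  tame := .of_forall fun d i => by
    cases i
    · exact ⟨hD.G.vol, ⟨_, (exists_C hD).choose_spec.1⟩,
        (Mp86.l4_of_tame (exists_C hD).choose_spec.1).mono (le_max_right _ _)⟩
    · exact ⟨d.bnd.vol, d.bnd.tame, d.bnd.wts.l4.mono (le_max_left _ _)⟩
  sub := .of_forall Dl.sub'
  γ0 := gm_pos hN
  γ1 := min_le_left _ _
  lw := .of_forall fun d => lw_exp (by linarith [gm_pos hN]) (exp_pos _)
  off := .of_forall fun d => by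
    constructor <;> rintro _ ⟨⟩ <;> rw [← exp_add] <;> refine one_le_exp (le_of_eq ?_)
    · rw [sub_sub_cancel_left, abs_neg, abs_of_nonneg d.R0]; ring
    · rw [add_sub_cancel_left, abs_of_nonneg d.R0]; ring

/-- the pairs of configurations -/
@[reducible] def cfL : (npL β k C S hD hN).tw.CF fun d => d.c.m.N where
  r d i := Bool.rec 0 d.r i
  J d := d.c.m.J
  p d := d.two d.c0.m.p d.c.m.p
  ρ d i a := d.two (d.c0.m.ρ a) (d.c.m.ρ a) i
  j d := d.two d.c0.m.j d.c.m.j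
  W d i a := d.two (d.c0.W a) (d.c.W a) i
  Φ d := d.two d.c0.Φ d.c.Φ
  z d i := Bool.rec (motive := fun i => EuclideanSpace ℂ (Fin (Bool.rec 0 d.r i))) d.c0.z d.c.z i

variable {β k C S} {j : ℕ}

theorem evL : (npL β k C S hD hN).cx.Ev fun d x => LitAt d.c (cf (cy β) d.a) d.i (d.K.ψ x) x :=
  ⟨0, le_rfl, .of_forall fun d z hz =>
    have h1 : d.t - d.R + 0 ≤ z.2 := hz.1 _ rfl
    have h2 : z.2 ≤ d.t + d.R - 0 := hz.2 _ rfl
    d.lit z (abs_le.2 ⟨by linarith, by linarith⟩)⟩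

include hD in
theorem zbL (hβ : D.Adm β) : ZB D.B D.G ⊤ k fun d : Dl D β k C S => d.c0 :=
  (zb_cf (Dec35.bs_cyl hD hβ) (a := fun d : Dl D β k C S => d.a)
    (.of_forall fun d => ⟨d.vb.cb, d.vb.tg, d.cb⟩)).stab (N := fun d => d.c.m.N)
      (J := fun d => d.c.m.J) (i := fun d => d.i) (.of_forall fun d => d.emb)

theorem gdL (hβ : D.Adm β) : ∀ᶠ d in (npL β k C S hD hN).l, ∀ i, Dgr80.Gd ((npL β k C S hD hN).S d i).B
    ((npL β k C S hD hN).S d i).G ((cfL β k C S hD hN).c d i) :=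
  (zbL hD hβ).gd.mono fun d h i => by
    cases i
    · exact h
    · exact d.gd

theorem nhL (hβ : D.Adm β) (hk : 8 ≤ k) : NP.NH (cfL β k C S hD hN) N k := by
  have z := zbL hD (k := k) (C := C) (S := S) hβ
  have z1 := z.of_le (j := 0 + 1) (by omega)
  have gd := gdL hD hN (k := k) (C := C) (S := S) hβ
  obtain ⟨K, hK⟩ := bk_sup z.Φ
  obtain ⟨e1, e2, e3, e4⟩ := ZB.elm (P := npL β k C S hD hN) (c := cfL β k C S hD hN) z
    ((evL hD hN).mono fun d x h i => by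
      cases i
      · exact ⟨rfl, fun _ => rfl, rfl⟩
      · exact ⟨h.p.symm, fun a => (h.ρ a).symm, h.j.symm⟩)
  obtain ⟨e5, e6⟩ := ZB.elW (P := npL β k C S hD hN) (c := cfL β k C S hD hN) z
    ((evL hD hN).mono fun d x h i => by
      cases i
      · exact ⟨fun _ => rfl, rfl⟩
      · exact ⟨fun a => (h.W a).symm, h.Φ.symm⟩)
  refine NP.nh_of gd hk hN (min_le_right _ _) e5 e6 ⟨|K| + |C|, by positivity,
    hK.mono fun d h i y => ?_⟩ e1 e2 e3 e4 (fun i => ?_) fun i => ?_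
  · cases i
    · exact (h y).trans ((le_abs_self K).trans (le_add_of_nonneg_right (abs_nonneg C)))
    · have h1 := d.bnd.le.one
      have h2 : ‖d.c.Φ y‖ ≤ C := le_of_sq_le_sq ((d.bnd.le.Φ y).trans (by nlinarith)) (by linarith)
      exact h2.trans ((le_abs_self C).trans (le_add_of_nonneg_left (abs_nonneg K)))
  · cases i
    · exact NP.cvS_sup gd ((z1.Fg (exists_C hD).choose_spec.1).imp fun _ h =>
        h.mono fun _ h x _ => h x)
    · exact NP.cvS_wt gd (S := S) (σ := C) (.of_forall fun d => ⟨d.w, d.bnd.wts, d.bnd.le, d.bnd.low⟩)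
  · cases i
    · exact NP.ewS_sup gd hN.δ0 (z1.nab.imp fun _ h => h.mono fun _ h a x _ => h a x)
    · exact NP.ewS_or gd hN.δ0 (C := C) (.of_forall fun d => d.bnd.en)

theorem outL {V : Dl D β k C S → Type} [∀ d, NormedAddCommGroup (V d)]
    [∀ d, InnerProductSpace ℝ (V d)] [∀ d, FiniteDimensional ℝ (V d)]
    {u : (npL β k C S hD hN).tw.Sc V} (h : (npL β k C S hD hN).tw.EL (j + 4) u) :
    ∃ K, 0 ≤ K ∧ ∀ K', K ≤ K' → ∀ d : Dl D β k C S, K' ≤ d.R → Dec35.Ls D j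
      (fun z => u d true (d.K.ψ z) - u d false z) d.t (K' * exp (-(gm N / 8) * d.R)) := by
  obtain ⟨L, hL, K, hK, h⟩ := h.d.bd
  refine ⟨L + K, by positivity, fun K' hK' d hR y => ?_⟩
  have e := (eventually_top.1 h d (y, d.t) ⟨by rintro _ ⟨⟩; show _ ≤ d.t; linarith,
    by rintro _ ⟨⟩; show d.t ≤ _; linarith⟩).2
  refine ⟨e.1, e.2.mono ?_⟩
  show K * (exp (-(gm N / 8) * d.R) * exp (gm N / 8 * |d.t - d.t|)) ≤ _
  rw [sub_self, abs_zero, mul_zero, exp_zero, mul_one]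
  exact mul_le_mul_of_nonneg_right (by linarith) (exp_pos _).le

theorem tm_n {X : Mf (Option κ) lam} (K : Nk D X.B X.G) (r n : ℕ) (o : Option (YW I3 Y))
    (c : Cfg X.M (Option κ) lam r) : (Dec35.tm N K r n o).D c = oD (Dec35.tm N K r 0 o) c ∧
      (Dec35.tm N K r n o).C c = oC (Dec35.tm N K r 0 o) c := by
  rcases o with _ | ⟨T, h⟩
  · exact ⟨rfl, rfl⟩
  · cases T <;> exact ⟨rfl, rfl⟩

theorem tmL (hβ : D.Adm β) (hk : 8 ≤ k) (o : Option (YW I3 Y)) :
    ((npL β k C S hD hN).tw.EL (N := (cfL β k C S hD hN).SV) k fun d i =>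
      oD (Dec35.tm N (d.K' i) _ 0 o) ((cfL β k C S hD hN).c d i)) ∧
    (npL β k C S hD hN).tw.EL (N := (cfL β k C S hD hN).S2) k fun d i =>
      oC (Dec35.tm N (d.K' i) _ 0 o) ((cfL β k C S hD hN).c d i) := by
  have h := nhL hD hN (C := C) (S := S) hβ hk
  cases o with
  | none => exact ⟨h.o1D, h.o1C⟩
  | some T => exact ⟨h.o2D T, h.o2C T⟩

include hD hN in
/-- **LOC** -/
theorem locIn (hβ : D.Adm β) : Dec35.LocIn D β N (gm N / 8) := fun o k => ⟨k + 8, fun C S => by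
  obtain ⟨h1, h2⟩ := tmL hD hN (k := k + 8) (C := C) (S := S) hβ (by omega) o
  obtain ⟨K, hK, h1⟩ := outL hD hN (j := k) (h1.of_le (by omega))
  obtain ⟨K', hK', h2⟩ := outL hD hN (j := k) (h2.of_le (by omega))
  refine ⟨K + K', fun X K₀ r n c a i w t R hR gd b vb cb emb sub lit => ?_⟩
  rw [(tm_n K₀ r n o c).1, (tm_n K₀ r n o c).2, (tm_n (X := ⟨D.B, D.G⟩) D.nk 0 0 o _).1,
    (tm_n (X := ⟨D.B, D.G⟩) D.nk 0 0 o _).2]
  let d : Dl D β (k + 8) C S := ⟨X, K₀, r, c, a, i, w, t, R, by linarith, gd, b, vb, cb, emb, sub, lit⟩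
  exact ⟨h1 _ (by linarith) d hR, h2 _ (by linarith) d hR⟩⟩

include hD hN in
theorem loc (hβ : D.Adm β) : ∃ γ > 0, Dec35.LocIn D β N γ :=
  ⟨_, by linarith [gm_pos hN], locIn hD hN hβ⟩

end Crest.Agent.X212.Rsv69
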