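import Crest.Agent.X212.Rsv69.Cfg
import Crest.Agent.X212.Pj41.Two
import Crest.Agent.X212.Tmp64.Cfg

/-! Row 212, RESP (helper69): uniformly bounded families of configurations. -/

set_option autoImplicit false
set_option linter.unusedSectionVars false
noncomputable section
open scoped Manifold ContDiff Topology InnerProductSpace
open MeasureTheory Set Function Filter Real

namespace Crest.Agent.X212.Rsv69
open Rsp69
open An Sob92 Wz78 Dgr80
open Mp86 (Wts)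
open Pj41 (stab Emb cjL cjM)
open Eqv71 (cj)

section gen
variable {E : Type} [NormedAddCommGroup E] [NormedSpace ℝ E] [FiniteDimensional ℝ E]
  [MeasurableSpace E] [BorelSpace E]
  {HM : Type} [TopologicalSpace HM] {I : ModelWithCorners ℝ E HM} [I.Boundaryless]
  {M : Type} [TopologicalSpace M] [ChartedSpace HM M] [IsManifold I ∞ M]
  [MeasurableSpace M] [T2Space M] [BorelSpace M] [SecondCountableTopology M]
  {ι : Type} [Fintype ι] {𝒟 : Type*} {lam : Type} [Fintype lam]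

theorem norm_iso' {K K' : Type} [NormedAddCommGroup K] [InnerProductSpace ℝ K]
    [NormedAddCommGroup K'] [InnerProductSpace ℝ K'] {e : K →L[ℝ] K'}
    (h : ∀ a b, ⟪e a, e b⟫_ℝ = ⟪a, b⟫_ℝ) : ‖e‖ ≤ 1 := e.opNorm_le_bound zero_le_one fun a => by
  rw [one_mul, norm_eq_sqrt_real_inner, h, ← norm_eq_sqrt_real_inner]

section md
variable {B : Base M ι lam} {G : Geo I M ι lam} {m : Md M ι lam}

theorem norm_rho (hB : B.OK I) (H : m.OK I B) (a : ι) (x : M) : ‖m.ρ a x‖ ≤ 1 := by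
  classical
  refine ContinuousLinearMap.opNorm_le_bound _ zero_le_one fun w => ?_
  have := Mp86.norm_cl (hB.pr x) (H.cl x) (fun a => H.ρsk a x) (H.psym x) (H.pidem x)
    (Pi.single a 1) w
  rw [one_mul]
  exact le_of_sq_le_sq (by simpa [Pi.single_apply] using this) (norm_nonneg _)

theorem norm_J (H : m.OK I B) : ‖m.J‖ ≤ 1 :=
  ContinuousLinearMap.opNorm_le_bound _ zero_le_one fun w => le_of_sq_le_sq (by
    rw [one_mul, ← real_inner_self_eq_norm_sq, H.Jsk, ← mul_apply_eq_comp, H.Jsq]; simp)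
    (by positivity)

theorem norm_j1 (hB : B.OK I) (H : m.OK I B) (x : M) : ‖m.j x‖ ≤ 1 :=
  ContinuousLinearMap.opNorm_le_bound₂ _ zero_le_one fun s v =>
    (Mp86.norm_j hB H x s v).trans_eq (by rw [one_mul])

theorem norm_pg1 (x : M) : ‖m.pg x‖ ≤ 1 :=
  ContinuousLinearMap.opNorm_le_bound _ zero_le_one fun v => (norm_pg x v).trans_eq (one_mul _).symm

theorem norm_cj {κ κ' : Type} [Fintype κ] [DecidableEq κ] [Fintype κ'] [DecidableEq κ']
    {u : CL (Eu κ) (Eu κ')} (h : trn u ∘L u = 1) : ‖cj u‖ ≤ 1 := norm_iso' fun a b => by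
  rw [Eqv71.inner_cj, Eqv71.cj_cj, h, Eqv71.cj_apply, Eqv71.trn_of_sym (fun _ _ => rfl)]
  exact congrArg _ (hsL_opL b)

/-- the projector of a stabilised module -/
theorem pg_stab {r : ℕ} {c : Cfg M ι lam r} (hB : B.OK I) (h : c.Adm B G) {N : ℕ} {J : En (Fin N)}
    {i : CL c.m.V (Eu (Fin N))} (hi : Emb c.m.J J i) (x : M) :
    (stab c J i).m.pg x = cj i ∘L c.m.pg x ∘L cj (trn i) := ContinuousLinearMap.ext fun η => by
  obtain ⟨h1, h2⟩ := Pj41.stab_spec hi isOpen_univ (Tmp64.admOn_univ.2 h)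
  have h3 := (Tmp64.admOn_univ.1 h1).ok
  have e := Eqv71.me_of_meq (h2.iso.mEq (Pj41.OK.on h.ok _) (Pj41.OK.on h3 _)) (mem_univ x)
  have k : ∀ {m : Md M ι lam}, m.OK I B → ∀ ξ ∈ m.gS x, cj (m.p x) ξ = ξ := fun {m} H ξ hξ => by
    rw [Eqv71.cj_apply, Eqv71.trn_of_sym (H.psym x)]
    exact (congrArg hsL ((congrArg (m.p x * ·) (g_p' H hξ)).trans (g_p hξ))).trans (hsL_opL ξ)
  have k' : ∀ {m : Md M ι lam}, m.OK I B → ∀ ξ, m.pg x (cj (m.p x) ξ) = m.pg x ξ :=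
    fun {m} H ξ => ext_inner_right ℝ fun ζ => by
      rw [inner_pg, Eqv71.inner_cj, Eqv71.trn_of_sym (H.psym x), k H _ (pg_mem x ζ), inner_pg]
  have e1 := e.pg (Eqv71.BE.refl hB x) hB hB h.ok h3 (cj (trn (i ∘L c.m.p x)) η)
  rw [Eqv71.cj_cj, e.uu'] at e1
  refine (k' h3 η).symm.trans (e1.trans ?_)
  rw [Eqv71.trn_comp, Eqv71.trn_of_sym (h.ok.psym x), ← Eqv71.cj_cj, ← Eqv71.cj_cj, k' h.ok,
    k h.ok _ (pg_mem _ _)]
  rfl

end md

/-! ### bounded families on one manifold -/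

/-- uniformly bounded families of configurations -/
structure ZB (B : Base M ι lam) (G : Geo I M ι lam) (l : Filter 𝒟) (k : ℕ) {r : 𝒟 → ℕ}
    (c : ∀ d, Cfg M ι lam (r d)) : Prop where
  gd : ∀ᶠ d in l, Gd B G (c d)
  W : ∀ a, Bk (N := fun d => (c d).m.A) (fun _ => G.F.toPre) l (un 𝒟 M) 1 k
    fun d x => hsL ((c d).W a x)
  Φ : Bk (N := fun d => (c d).m.V) (fun _ => G.F.toPre) l (un 𝒟 M) 1 k fun d => (c d).Φ
  p : Bk (N := fun d => En (Fin (c d).m.N)) (fun _ => G.F.toPre) l (un 𝒟 M) 1 k fun d => (c d).m.p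
  ρ : ∀ a, Bk (N := fun d => En (Fin (c d).m.N)) (fun _ => G.F.toPre) l (un 𝒟 M) 1 k
    fun d => (c d).m.ρ a
  j : Bk (N := fun d => CL (Eu lam) (En (Fin (c d).m.N))) (fun _ => G.F.toPre) l (un 𝒟 M) 1 k
    fun d => (c d).m.j
  pg : Bk (N := fun d => CL (c d).m.A (c d).m.A) (fun _ => G.F.toPre) l (un 𝒟 M) 1 k
    fun d => (c d).m.pg

theorem bk_sup {N : 𝒟 → Type} [∀ d, NormedAddCommGroup (N d)] [∀ d, NormedSpace ℝ (N d)]
    {F : 𝒟 → Pre I M ι} {l : Filter 𝒟} {k : ℕ} {f : ∀ d, M → N d} (h : Bk F l (un 𝒟 M) 1 k f) :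
    ∃ C, ∀ᶠ d in l, ∀ x, ‖f d x‖ ≤ C :=
  let ⟨K, _, h⟩ := h; ⟨K, h.mono fun _ h x => (h x trivial).2.2.bd.trans_eq (mul_one _)⟩

namespace ZB
variable {B : Base M ι lam} {G : Geo I M ι lam} {l : Filter 𝒟} {k : ℕ} {r : 𝒟 → ℕ}
  {c : ∀ d, Cfg M ι lam (r d)}

theorem of_le (h : ZB B G l k c) {j : ℕ} (hj : j ≤ k) : ZB B G l j c :=
  ⟨h.gd, fun a => (h.W a).of_le hj, h.Φ.of_le hj, h.p.of_le hj, fun a => (h.ρ a).of_le hj,
    h.j.of_le hj, h.pg.of_le hj⟩

theorem Fg (h : ZB B G l (k + 1) c) {C : ℕ → ℝ} (hF : G.F.Tame C) :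
    ∃ C, ∀ᶠ d in l, ∀ x, ‖(c d).m.Fg G.F (c d).W x‖ ≤ C := by
  classical
  have W := fun a => (h.W a).of_le k.le_succ
  have A := fun a => (W a).clm (L := fun d => adR (Fin (c d).m.N)) (.of_le 2 fun _ => norm_adR)
  have e := Bk.sum (Finset.univ : Finset (ι × ι)) Bk.nn1 fun s _ => ((h.pg.of_le k.le_succ).appR
    (((((h.W s.2).D s.1).sub ((h.W s.1).D s.2)).add ((A s.1).appR (W s.2))).sub
      (Bk.sum Finset.univ Bk.nn1 fun a _ => (Bk.of_CBs (.of_forall fun _ => hF.c s.1 s.2 a)).smulR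
        (W a)))).clm (L := fun d => sgl (c d).m.A s) (.of_le 1 fun _ => norm_sgl s)
  obtain ⟨C, hC⟩ := bk_sup e
  refine ⟨C, (hC.and h.gd).mono fun d h x => le_of_eq_of_le (congrArg _ ?_) (h.1 x)⟩
  rw [sum_sgl]
  refine congrArg _ (funext fun s => congrArg _ ?_)
  rw [Cyc79.D_clm _ hsL (Cb.sm (h.2.W _)), Cyc79.D_clm _ hsL (Cb.sm (h.2.W _))]
  simp only [curv, map_sub, map_add, map_sum, map_smul, adR_apply, Wz78.adc_apply, Wz78.opL_hsL]
  rfl

theorem nab (h : ZB B G l (k + 1) c) :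
    ∃ C, ∀ᶠ d in l, ∀ a x, ‖nab I G.F.e (c d).W a (c d).Φ x‖ ≤ C := by
  have e := fun a => bk_sup ((h.Φ.D a).add ((((h.W a).of_le k.le_succ).clm (L := fun d => opL)
    (.of_le 1 fun _ => norm_opL)).appR (h.Φ.of_le k.le_succ)))
  choose C hC using e
  exact ⟨∑ a, |C a|, (eventually_all.2 hC).mono fun d h a x => (le_of_eq_of_le
    (by rw [Wz78.opL_hsL]; rfl) (h a x)).trans ((le_abs_self _).trans (Finset.single_le_sum
      (f := fun a => |C a|) (fun _ _ => abs_nonneg _) (Finset.mem_univ a)))⟩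

theorem stab (h : ZB B G l k c) {N : 𝒟 → ℕ} {J : ∀ d, En (Fin (N d))}
    {i : ∀ d, CL (c d).m.V (Eu (Fin (N d)))} (hi : ∀ᶠ d in l, Emb (c d).m.J (J d) (i d)) :
    ZB B G l k fun d => stab (c d) (J d) (i d) := by
  have i1 : ∀ᶠ d in l, trn (i d) ∘L i d = 1 := hi.mono fun d h => Pj41.ad_trn (i d) ▸ h.iso
  have n1 : ∀ᶠ d in l, ‖i d‖ ≤ 1 := i1.mono fun d h => norm_iso' fun a b => by
    rw [← Eqv71.inner_trn', ← ContinuousLinearMap.comp_apply, h]; rfl
  have n2 : Ub l fun d => ‖cjL (i d)‖ := ⟨1, zero_le_one, n1.mono fun d h =>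
    ContinuousLinearMap.opNorm_le_bound _ zero_le_one fun T => by
      rw [Pj41.cjL_apply, Pj41.ad_eq_adjoint, one_mul]
      refine ((i d).opNorm_comp_le _).trans ((mul_le_of_le_one_left (norm_nonneg _) h).trans
        ((T.opNorm_comp_le _).trans (mul_le_of_le_one_right (norm_nonneg _) ?_)))
      rwa [LinearIsometryEquiv.norm_map]⟩
  have n3 := i1.mono fun d h => norm_cj h
  have n4 : ∀ᶠ d in l, ‖cj (trn (i d))‖ ≤ 1 := n3.mono fun d h => by
    rwa [show cj (trn (i d)) = ContinuousLinearMap.adjoint (cj (i d)) from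
      (ContinuousLinearMap.eq_adjoint_iff _ _).2 fun a b => by
        rw [Eqv71.inner_cj, Eqv71.trn_trn], LinearIsometryEquiv.norm_map]
  have cp : ∀ {U V W : Type} [NormedAddCommGroup U] [NormedSpace ℝ U] [NormedAddCommGroup V]
      [NormedSpace ℝ V] [NormedAddCommGroup W] [NormedSpace ℝ W] (T : V →L[ℝ] W),
      ‖ContinuousLinearMap.compL ℝ U V W T‖ ≤ ‖T‖ := fun T =>
    ContinuousLinearMap.opNorm_le_bound _ (norm_nonneg _) T.opNorm_comp_le
  let L := fun d => ContinuousLinearMap.compL ℝ (HS (Fin (N d))) _ _ (cj (i d)) ∘L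
    (ContinuousLinearMap.compL ℝ (HS (Fin (N d))) (c d).m.A (c d).m.A).flip (cj (trn (i d)))
  have eL : ∀ᶠ d in l, (Pj41.stab (c d) (J d) (i d)).m.pg = fun x => L d ((c d).m.pg x) :=
    (hi.and h.gd).mono fun d h => funext (pg_stab h.2.hB h.2.adm h.1)
  have nL : Ub l fun d => ‖L d‖ := ⟨1, zero_le_one, (n3.and n4).mono fun d h =>
    ContinuousLinearMap.opNorm_le_bound _ zero_le_one fun T => by
      rw [one_mul]
      exact ((cj (i d)).opNorm_comp_le _).trans ((mul_le_of_le_one_left (norm_nonneg _) h.1).trans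
        ((T.opNorm_comp_le _).trans (mul_le_of_le_one_right (norm_nonneg _) h.2)))⟩
  have b1 := fun a => (h.W a).clm (N' := fun d => HS (Fin (N d))) (L := fun d => cj (i d))
    ⟨1, zero_le_one, n3⟩
  have b2 := h.Φ.clm (N' := fun d => Eu (Fin (N d))) (L := i) ⟨1, zero_le_one, n1⟩
  have b3 := h.p.clm (N' := fun d => En (Fin (N d))) (L := fun d => cjL (i d)) n2
  have b4 := fun a => (h.ρ a).clm (N' := fun d => En (Fin (N d))) (L := fun d => cjL (i d)) n2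
  have b5 := h.j.clm (N' := fun d => CL (Eu lam) (En (Fin (N d))))
    (L := fun d => ContinuousLinearMap.compL ℝ _ _ _ (cjL (i d)))
    (n2.imp fun _ h => ⟨h.1, h.2.mono fun _ h => (cp _).trans h⟩)
  have b6 := h.pg.clm (N' := fun d => CL (HS (Fin (N d))) (HS (Fin (N d)))) (L := L) nL
  refine ⟨((hi.and h.gd).and eL).mono fun d h => ?_,
    fun a => (b1 a).congr (.of_forall fun d x _ => .of_forall fun y => ?_), b2, b3, b4, b5,
    b6.congr (eL.mono fun d h x _ => .of_forall fun y => (congrFun h y).symm)⟩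
  · have g := h.1.2
    have a := Tmp64.admOn_univ.1 (Pj41.stab_spec h.1.1 isOpen_univ (Tmp64.admOn_univ.2 g.adm)).1
    have q : G.F.Cb (Pj41.stab (c d) (J d) (i d)).m.pg := by rw [h.2]; exact Cb_clm _ g.pg
    let L' : CL (CL (Eu lam) (En (Fin (c d).m.N))) (CL (Eu lam) (En (Fin (N d)))) :=
      ContinuousLinearMap.compL ℝ (Eu lam) _ _ (cjL (i d))
    have q' := Cb_clm L' g.j
    exact ⟨⟨g.hB, g.hG, a.ok, a.conn, g.tame, fun a => Cb_clm (cjL (i d)) (g.W a), q⟩, a,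
      Cb_clm (i d) g.Φ, Cb_clm (cjL (i d)) g.p, fun a => Cb_clm (cjL (i d)) (g.ρ a),
      q'⟩
  · exact (Eqv71.cj_hsL _ _).trans (by rw [← Pj41.ad_trn]; rfl)

end ZB

end gen

end Crest.Agent.X212.Rsv69
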