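import Crest.Agent.X212.Rsv69.Hd
import Crest.Agent.X212.Rsv69.Nk
import Crest.Agent.X212.Rsv69.Zb

/-! Row 212, RESP (helper69): the hypotheses of the engine from a priori bounds. -/

set_option autoImplicit false
set_option linter.unusedSectionVars false
noncomputable section
open scoped Manifold ContDiff Topology InnerProductSpace
open MeasureTheory Set Function Filter Real

namespace Crest.Agent.X212.Rsv69
open Rsp69
open An Sob92 Wz78 Dgr80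
open Mp86 (Wts)
open Pj41 (stab Emb cjL cjM)
open Eqv71 (cj)

section gen
variable {E : Type} [NormedAddCommGroup E] [NormedSpace ℝ E] [FiniteDimensional ℝ E]
  [MeasurableSpace E] [BorelSpace E]
  {HM : Type} [TopologicalSpace HM] {I : ModelWithCorners ℝ E HM} [I.Boundaryless]
  {M : Type} [TopologicalSpace M] [ChartedSpace HM M] [IsManifold I ∞ M]
  [MeasurableSpace M] [T2Space M] [BorelSpace M] [SecondCountableTopology M]
  {ι : Type} [Fintype ι] {𝒟 : Type*} {lam : Type} [Fintype lam]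

theorem sq_le_four {c t : ℝ} (h : 1 ≤ c) : t ^ 2 ≤ 1 + c * t ^ 4 := by
  nlinarith [mul_le_mul_of_nonneg_right h (show 0 ≤ t ^ 4 by positivity), sq_nonneg (t ^ 2 - 1),
    sq_nonneg t]

/-- window bounds from integrable majorants -/
theorem Tw.hkW {X : Cx I M ι 𝒟} {T : Tw X lam} {N : 𝒟 → Type} [∀ d, NormedAddCommGroup (N d)]
    [∀ d, NormedSpace ℝ (N d)] {g : T.Sc N} {i : Bool} (hs : ∀ᶠ d in X.l, Sm (T.S d i).I (g d i))
    {L₀ : ℝ} (h₀ : 0 ≤ L₀) (h : ∀ R, 0 ≤ R → ∃ K, ∀ᶠ z in X.lw (L₀ + R), ∀ x₀ ∈ X.W R z, ∃ G,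
      (∀ y, 0 ≤ G y) ∧ LB (T.F z.1 i).μ G K ∧ ∀ x ∈ X.W R z,
        ‖g z.1 i (T.ψ z.1 i x)‖ ^ 2 ≤ 1 + G (T.ψ z.1 i x)) :
    X.Hk 1 0 fun d x => g d i (T.ψ d i x) := by
  obtain ⟨L, hL, h1⟩ := T.rel.win
  refine ⟨L + L₀, by positivity, fun R hR => ?_⟩
  obtain ⟨K, h⟩ := h R hR
  refine ⟨|X.v R| + |K|, by positivity, ?_⟩
  filter_upwards [(h1 R).filter_mono (Cx.lw_mono (by linarith)), h.filter_mono
    (Cx.lw_mono (by linarith)), Cx.ev_fst hs, Cx.ev_fst T.iso, Cx.ev_fst X.sτ, (Cx.bk_η' R 0).sa,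
    Cx.W_vol (R := R) (by linarith)] with z h1 h hs hi hτ hη hv
  have s : Sm I fun x => X.η R z x • g z.1 i (T.ψ z.1 i x) := sm_cut (fun x => hη x trivial)
    fun x hx => ((h1 x (Cx.ts_η hτ.1 hx)).2 i).1.sm ((h1 x (Cx.ts_η hτ.1 hx)).2 i).2.1 (hs _)
  refine ⟨zero_le_one, s, .intro hv.1 fun x hx => by rw [Cx.η_zero hx, zero_smul], ?_⟩
  by_cases e : (X.W R z).Nonempty
  swap
  · refine le_of_eq_of_le (b := 0) ?_ (by positivity)
    show ∫ x, ‖_‖ ^ 2 ∂_ = 0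
    simp [fun x => Cx.η_zero (X := X) (R := R) (z := z) (x := x) fun k => e ⟨x, k⟩]
  obtain ⟨G, g0, g1, g2⟩ := h _ e.some_mem
  have := (X.F z.1).fin
  have l1 : LB (X.F z.1).μ ((X.W R z).indicator 1) |X.v R| :=
    ⟨(integrable_indicator_iff hv.1.measurableSet).2 (integrableOn_const hv.1.measure_lt_top.ne), by
      rw [integral_indicator_one hv.1.measurableSet]; exact hv.2.trans (le_abs_self _)⟩
  have l : LB (X.F z.1).μ (pull (T.ψ z.1 i) G) |K| :=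
    ⟨(Nka63.integrable_pull_iff (hi.2 i).1).2 g1.1.integrableOn, by
      rw [Nka63.integral_pull' (hi.2 i).1]
      exact (setIntegral_le_integral g1.1 (.of_forall g0)).trans (g1.2.trans (le_abs_self K))⟩
  refine ((l1.add l).mono (g' := fun x => ‖X.η R z x • g z.1 i (T.ψ z.1 i x)‖ ^ 2)
    (s.continuous.norm.pow 2).aestronglyMeasurable (fun _ => sq_nonneg _) fun x => ?_).2.trans
    (by simp)
  by_cases hx : x ∈ X.W R z
  · rw [pull_of_mem ((h1 x hx).2 i).2.1, norm_smul, mul_pow, Real.norm_eq_abs, sq_abs,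
      indicator_of_mem hx]
    exact (mul_le_of_le_one_left (sq_nonneg _) (pow_le_one₀ wc_mem.1 wc_mem.2)).trans (g2 x hx)
  · rw [Cx.η_zero hx, zero_smul, norm_zero, sq, mul_zero, indicator_of_notMem hx, zero_add]
    exact indicator_nonneg (fun _ _ => g0 _) _

end gen

open Nd18 Nka63

variable {E3 : Type} [NormedAddCommGroup E3] [NormedSpace ℝ E3] [FiniteDimensional ℝ E3]
  [MeasurableSpace E3] [BorelSpace E3]
  {H3 : Type} [TopologicalSpace H3] {I3 : ModelWithCorners ℝ E3 H3} [I3.Boundaryless]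
  {Y : Type} [TopologicalSpace Y] [ChartedSpace H3 Y] [IsManifold I3 ∞ Y] [T2Space Y]
  [MeasurableSpace Y] [BorelSpace Y] [SecondCountableTopology Y] [CompactSpace Y]
  {κ : Type} [Fintype κ] {lam : Type} [Fintype lam] {D : YD I3 Y κ lam} {𝒟 : Type*}

namespace NP
open Rsp69.Cx Rsv69.Tw
variable {P : NP D 𝒟} {n₀ : 𝒟 → ℕ} {j : ℕ} (c : P.tw.CF n₀) {N : ND Y lam} {i : Bool} {δ : ℝ}

/-- the curvature -/
abbrev Fg (d : 𝒟) (i : Bool) : (P.S d i).M → c.S2 d := (c.m d i).Fg (P.tw.F d i) (c.W d i)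

/-- sections dominated by the curvature on the side `i` -/
def CvS (i : Bool) : Prop := ∀ (s : P.tw.Sc c.SA) (a : ℝ), 0 ≤ a → (∀ᶠ d in P.l, Continuous (s d i) ∧
    ∀ x, ‖s d i x‖ ≤ a * ‖Fg c d i x‖ ∧ (x ∉ (P.K d i).dp 1 → s d i x = 0)) →
  (P.cx.Hk 1 0 fun d x => (P.tw.F d i).res (c.A d i) (s d i) (P.tw.ψ d i x)) ∧
    ∃ K, ∀ᶠ d in P.l, ∀ y, ‖(P.tw.F d i).res (c.A d i) ((P.tw.F d i).res (c.A d i) (s d i)) y‖ ≤ K

/-- the density of the spinor energy -/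
abbrev ed : P.tw.Fn := fun d i x => (P.K d i).χ4 x *
  ‖(P.K d i).χ4 x • nt (P.tw.F d i) (c.W d i) (P.K d i).τ (c.Φ d i) x‖ ^ 2

/-- bounded windows on the side `i` -/
def EwS (δ : ℝ) (i : Bool) : Prop := ∃ b₀, ∀ᶠ d in P.l, Wb (P.K d i) δ b₀ (ed c d i)

variable {c} (gd : ∀ᶠ d in P.l, ∀ i, Gd (P.S d i).B (P.S d i).G (c.c d i))
include gd

theorem cvS_sup (h : ∃ C, ∀ᶠ d in P.l, ∀ x ∈ (P.K d i).dp 1, ‖Fg c d i x‖ ≤ C) : CvS c i := by
  intro s a ha hs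
  obtain ⟨C, h⟩ := h
  have r : ∀ᶠ d in P.l, ∀ {u K}, (∀ x, ‖u x‖ ≤ K) → ∀ x, ‖(P.tw.F d i).res (c.A d i) u x‖ ≤ K :=
    gd.mono fun d h _ _ => Mp86.norm_res_le (h i).pp.bmp (h i).pp.mc
  have h1 : ∀ᶠ d in P.l, ∀ x, ‖(P.tw.F d i).res (c.A d i) (s d i) x‖ ≤ a * |C| :=
    ((r.and h).and hs).mono fun d h => h.1.1 fun x => by
      by_cases e : x ∈ (P.K d i).dp 1
      · exact (h.2.2 x).1.trans (mul_le_mul_of_nonneg_left ((h.1.2 x e).trans (le_abs_self C)) ha)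
      · rw [(h.2.2 x).2 e, norm_zero]; positivity
  exact ⟨hk_of_CB (T := P.tw) (u := fun d i => (P.tw.F d i).res (c.A d i) (s d i))
    (h1.mono fun d h => ⟨Mp86.sm_res _ _ _, CB_zero.2 h⟩), _, (r.and h1).mono fun d h => h.1 h.2⟩

theorem cvS_wt {S σ : ℝ} (h : ∀ᶠ d in P.l, ∃ w, Wts (P.tw.F d i) S w ∧ (c.c d i).Le (P.tw.F d i) w σ ∧
    ∀ x ∈ (P.K d i).dp 1, ∀ z ∈ (P.K d i).dp 1,
      exp (-(√(1 + ((P.K d i).tm z - (P.K d i).tm x) ^ 2) / 4)) ≤ w x z) : CvS c i := by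
  intro s a ha hs
  have h1 : ∀ᶠ d in P.l, ∃ w, Wts (P.tw.F d i) S w ∧ (∀ x ∈ (P.K d i).dp 1, ∀ z ∈ (P.K d i).dp 1,
      exp (-(√(1 + ((P.K d i).tm z - (P.K d i).tm x) ^ 2) / 4)) ≤ w x z) ∧ 0 ≤ a * σ ∧
      ∀ x, LB (P.tw.F d i).μ (fun y => (w x y * ‖s d i y‖) ^ 2) ((a * σ) ^ 2) :=
    (h.and hs).mono fun d ⟨⟨w, h1, h2, h3⟩, h4, h5⟩ => ⟨w, h1, h3,
      mul_nonneg ha (zero_le_one.trans h2.one), fun x => by
        rw [mul_pow a]
        refine (LB.mul ⟨h2.int x, h2.F x⟩ (sq_nonneg a)).mono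
          (((h1.wt x).sm.continuous.mul h4.norm).pow 2).aestronglyMeasurable
          (fun _ => sq_nonneg _) fun y => ?_
        rw [← mul_pow, mul_left_comm]
        have := ((h1.wt x).pos y).le
        gcongr
        exact (h5 y).1⟩
  obtain ⟨L, hL, h2⟩ := (P.dp 1).win
  refine ⟨hkW (T := P.tw) (g := fun d i => (P.tw.F d i).res (c.A d i) (s d i))
    (.of_forall fun _ => Mp86.sm_res _ _ _) hL fun R hR =>
      ⟨exp (1 + 2 * R) * (S * (2 * (a * σ)) ^ 2) ^ 2, ?_⟩, 4 * (3 + 8 * S ^ 2) * √S * (a * σ),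
    (h1.and gd).mono fun d ⟨⟨w, h1, _, h3, h4⟩, g⟩ y => ?_⟩
  · filter_upwards [h2 R, ev_fst h1, ev_fst gd] with z h2 ⟨w, h1, h3, h4, h5⟩ g x₀ hx₀
    have m : ∀ x ∈ P.cx.W R z, (P.K z.1 i).ψ x ∈ (P.K z.1 i).dp 1 := fun x hx => by
      rw [Nk.dp, mem_preimage, (h2 x hx i).2.2.1]; exact (h2 x hx i).2.1
    refine ⟨_, fun _ => by positivity, LB.mul ((h1.wt ((P.K z.1 i).ψ x₀)).l4_le (g i).pp.mc h1.l4
      h1.nn h4 (h5 _).1 (h5 _).2) (exp_pos (1 + 2 * R)).le, fun x hx => ?_⟩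
    have e := h3 _ (m x₀ hx₀) _ (m x hx)
    rw [(h2 x hx i).2.2.1, (h2 x₀ hx₀ i).2.2.1] at e
    have e1 : √(1 + (x.2 - x₀.2) ^ 2) ≤ 1 + 2 * R := by
      have : |x.2 - x₀.2| ≤ 2 * R := (abs_sub_le _ z.2 _).trans (by
        rw [abs_sub_comm z.2]; linarith [show |x.2 - z.2| ≤ R from hx, show |x₀.2 - z.2| ≤ R from hx₀])
      refine sqrt_le_iff.2 ⟨by positivity, ?_⟩
      nlinarith [sq_abs (x.2 - x₀.2), abs_nonneg (x.2 - x₀.2)]
    have e2 : 1 ≤ exp (1 + 2 * R) * w ((P.K z.1 i).ψ x₀) ((P.K z.1 i).ψ x) ^ 4 := by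
      refine le_trans ?_ (mul_le_mul_of_nonneg_left (pow_le_pow_left₀ (exp_pos _).le e 4)
        (exp_pos _).le)
      rw [← exp_nat_mul, ← exp_add]
      exact one_le_exp (by push_cast; linarith)
    rw [mul_pow, ← mul_assoc]
    exact sq_le_four e2
  · have := Cht98.openPos (P.tw.F d i).toPre
    exact (le_mul_of_one_le_left (norm_nonneg _) (h1.one y)).trans
      ((h1.wt y).sup_GG (g i).pp.mc h1.l4 h1.nn h3 (h4 y).1 (h4 y).2 y)

theorem cont_ed : ∀ᶠ d in P.l, Continuous (ed c d i) :=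
  (gd.and (eventually_all.2 fun a => (P.dτ (k := 0) a).q)).mono fun d h =>
    have χ := (Cb.sm ((P.K d i).cb_cut (show (0 : ℝ) < 4 by norm_num))).continuous
    χ.mul ((χ.smul (Cb.sm (Cb_sum _ fun a _ =>
      Cb_smul (h.2 a i) (Cb.nab (h.1 i).W (h.1 i).Φ a))).continuous).norm.pow 2)

omit gd in
theorem ed_zero (d : 𝒟) (x : (P.S d i).M) (hx : x ∉ (P.K d i).dp 4) : ed c d i x = 0 :=
  mul_eq_zero_of_left (ct_zero hx) _

omit gd in
theorem ed_le (d : 𝒟) (x : (P.S d i).M) : 0 ≤ ed c d i x ∧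
    ed c d i x ≤ ‖nt (P.tw.F d i) (c.W d i) (P.K d i).τ (c.Φ d i) x‖ ^ 2 := by
  have h : (P.K d i).χ4 x ∈ Icc (0 : ℝ) 1 := ct_mem
  refine ⟨mul_nonneg h.1 (sq_nonneg _), (mul_le_of_le_one_left (sq_nonneg _) h.2).trans ?_⟩
  rw [norm_smul, Real.norm_of_nonneg h.1]
  exact pow_le_pow_left₀ (mul_nonneg h.1 (norm_nonneg _))
    (mul_le_of_le_one_left (norm_nonneg _) h.2) 2

theorem ewS_sup (hδ : 0 < δ) (h : ∃ C, ∀ᶠ d in P.l, ∀ a, ∀ x ∈ (P.K d i).dp 1,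
    ‖Wz78.nab (P.S d i).I (P.tw.F d i).e (c.W d i) a (c.Φ d i) x‖ ≤ C) : EwS c δ i := by
  obtain ⟨C, h⟩ := h
  choose K hK h1 using fun a => (P.dτ (k := 0) a).u
  refine ⟨_, ((h.and (eventually_all.2 h1)).and (cont_ed (i := i) gd)).mono fun d h =>
    .of_bd (c := (∑ a, K a * C) ^ 2) _ hδ h.2.aestronglyMeasurable
      (fun x hx => ed_zero d x fun e => hx (Dp_mono (by norm_num) e)) fun x => ?_⟩
  by_cases e : x ∈ (P.K d i).dp 4
  · rw [Real.norm_of_nonneg (ed_le d x).1]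
    exact (ed_le d x).2.trans (pow_le_pow_left₀ (norm_nonneg _) (norm_sum_le_of_le _ fun a _ =>
      (norm_smul_le _ _).trans (mul_le_mul (h.1.2 a i x) (h.1.1 a x (Dp_mono (by norm_num) e))
        (norm_nonneg _) (hK a))) 2)
  · rw [ed_zero d x e, norm_zero]; positivity

theorem ewS_or (hδ : 0 < δ) {C : ℝ} (h : ∀ᶠ d in P.l, LB (P.tw.F d i).μ (fun z =>
    (P.K d i).cut 3 ((P.K d i).τ z) * en (P.tw.F d i) (c.c d i) (P.K d i).τ z) C ∨
      ∀ z, en (P.tw.F d i) (c.c d i) (P.K d i).τ z ≤ C) : EwS c δ i := by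
  refine ⟨max (δ / 2 * C) (|C| * vY D), (h.and (cont_ed (i := i) gd)).mono fun d h => ?_⟩
  have z := fun x (hx : x ∉ (P.K d i).dp 1) => ed_zero (c := c) d x fun e =>
    hx (Dp_mono (by norm_num) e)
  have le : ∀ x, ‖ed c d i x‖ ≤ en (P.tw.F d i) (c.c d i) (P.K d i).τ x := fun x => by
    rw [Real.norm_of_nonneg (ed_le d x).1]
    exact (ed_le d x).2.trans (le_add_of_nonneg_left (by positivity))
  obtain ⟨h1 | h1, h2⟩ := h
  swap
  · have e := Wb.of_bd (P.K d i) hδ h2.aestronglyMeasurable z fun x => (le x).trans (h1 x)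
    exact ⟨e.wi, fun t => (e.bd t).trans (le_max_right _ _), e.z⟩
  have cτ := (P.K d i).sm_τ.continuous
  have k : ∀ t, LB (P.tw.F d i).μ (fun x => b (δ / 2) ((P.K d i).τ x - t) * ‖ed c d i x‖)
      (δ / 2 * C) := fun t => (h1.mul (half_pos hδ).le).mono
    (((continuous_b _).comp (cτ.sub continuous_const)).mul h2.norm).aestronglyMeasurable
    (fun x => mul_nonneg (b_pos (half_pos hδ) _).le (norm_nonneg _)) fun x => by
      refine mul_le_mul (b_le (half_pos hδ) _) ?_ (norm_nonneg _) (half_pos hδ).le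
      by_cases e : x ∈ (P.K d i).dp 4
      · rw [cut_τ_one _ (by norm_num) (by norm_num; exact e), one_mul]
        exact le x
      · rw [ed_zero d x e, norm_zero]
        exact mul_nonneg ct_mem.1 (add_nonneg (by positivity) (sq_nonneg _))
  exact ⟨⟨cτ.aestronglyMeasurable, h2.aestronglyMeasurable, by simpa only [sub_zero] using (k 0).1⟩,
    fun t => (k t).2.trans (le_max_left _ _), z⟩

theorem cv_of (cv : ∀ i, CvS c i) (φ : Option κ × Option κ → P.tw.Fn) (hφ : ∀ s, P.tw.EC j (φ s))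
    (h0 : ∀ s d i, ∀ x ∉ (P.K d i).dp 1, φ s d i x = 0) :
    (∀ i, P.cx.Hk 1 0 fun d x => (P.tw.F d i).res (c.A d i) (c.fg φ d i) (P.tw.ψ d i x)) ∧
      P.tw.U (N := c.SA) fun d i =>
        (P.tw.F d i).res (c.A d i) ((P.tw.F d i).res (c.A d i) (c.fg φ d i)) := by
  choose K hK h1 using fun s => (hφ s).u
  have e0 : ∀ i, ∀ᶠ d in P.l, Continuous (c.fg φ d i) ∧ ∀ x, ‖c.fg φ d i x‖ ≤ (∑ s, K s) * ‖Fg c d i x‖ ∧
      (x ∉ (P.K d i).dp 1 → c.fg φ d i x = 0) := fun i => by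
    filter_upwards [gd, eventually_all.2 h1, eventually_all.2 fun s => (hφ s).q] with d g h1 h2
    refine ⟨continuous_finsetSum _ fun s _ => (Cb.sm (h2 s i)).continuous.smul ?_, fun x => ⟨?_,
      fun hx => Finset.sum_eq_zero fun s _ => by rw [h0 _ d i x hx, zero_smul]⟩⟩
    · exact ((Cb.sm (g i).pg).clm_apply (hsL.contMDiff.comp
        (Wz78.sm_curv (g i).conn.cc.sm s.1 s.2))).continuous
    · rw [Finset.sum_mul]
      exact norm_sum_le_of_le _ fun s _ => (norm_smul_le _ _).trans (mul_le_mul (h1 s i x)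
        (PiLp.norm_apply_le (Fg c d i x) s) (norm_nonneg _) (hK s))
  have e := fun i => cv i (c.fg φ) (∑ s, K s) (Finset.sum_nonneg fun s _ => hK s) (e0 i)
  choose K' h2 using fun i => (e i).2
  exact ⟨fun i => (e i).1, |K' true| + |K' false|, by positivity, (eventually_all.2 h2).mono
    fun d h i y => (h i y).trans ((le_abs_self _).trans (by cases i <;> simp))⟩

end NP

end Crest.Agent.X212.Rsv69
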