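import Crest.Agent.X212.Rsv69.Hd

/-! Row 212, RESP (helper69): the base fields of the cyclic seeds of a pair are close. -/

set_option autoImplicit false
set_option linter.unusedSectionVars false
noncomputable section
open scoped Manifold ContDiff Topology InnerProductSpace
open MeasureTheory Set Function Filter Real

namespace Crest.Agent.X212.Rsv69
open Rsp69
open An Sob92 Wz78 Dgr80
open Cyc79 (KK ct fb cf bs aA amp Pp Pq QI Sep SepN cf_zero cf_one)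
open ContinuousLinearMap (adjoint)

theorem norm_iso {K K' : Type} [NormedAddCommGroup K] [InnerProductSpace ℝ K]
    [NormedAddCommGroup K'] [InnerProductSpace ℝ K'] {e : K →L[ℝ] K'}
    (h : ∀ a b, ⟪e a, e b⟫_ℝ = ⟪a, b⟫_ℝ) : ‖e‖ ≤ 1 := e.opNorm_le_bound zero_le_one fun a => by
  rw [one_mul, norm_eq_sqrt_real_inner, h, ← norm_eq_sqrt_real_inner]

theorem amp_split {V U : Type} [NormedAddCommGroup V] [NormedSpace ℝ V] [NormedAddCommGroup U]
    [NormedSpace ℝ U] (L : U →L[ℝ] V →L[ℝ] V) {p q : U} {a b : V} (t : ℝ) (ha : L p a = a)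
    (hb : L q b = b) : L p (t • a - t • b) + L (p - q) (t • b) = t • a - t • b := by
  simp [ha, hb, smul_sub]

theorem norm_amp1 {K ν : Type} [NormedAddCommGroup K] [InnerProductSpace ℝ K] [CompleteSpace K]
    [Fintype ν] [DecidableEq ν] : ‖amp (κ := ν) K‖ ≤ 1 :=
  ContinuousLinearMap.opNorm_le_bound₂ _ zero_le_one fun S v =>
    (Cyc79.norm_amp S v).trans_eq (by rw [one_mul])

variable {E : Type} [NormedAddCommGroup E] [NormedSpace ℝ E] [FiniteDimensional ℝ E]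
  [MeasurableSpace E] [BorelSpace E]
  {HM : Type} [TopologicalSpace HM] {I : ModelWithCorners ℝ E HM} [I.Boundaryless]
  {M : Type} [TopologicalSpace M] [ChartedSpace HM M] [IsManifold I ∞ M]
  [MeasurableSpace M] [T2Space M] [BorelSpace M] [SecondCountableTopology M]
  {ι : Type} [Fintype ι] {𝒟 : Type*} {lam : Type} [Fintype lam]

/-- nested cut-offs between the levels `5 / 2` and `3` -/
def th (j : ℕ) (φ : M → ℝ) : M → ℝ := cf (8 * 2 ^ j) (3 - (2 ^ j)⁻¹ / 2) φ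

section th
variable {j : ℕ} {φ : M → ℝ} {x : M}

theorem th_one (h : 3 - 3 / 8 * (2 ^ j)⁻¹ ≤ φ x) : th j φ x = 1 := cf_one <| by
  have p : (0 : ℝ) < 2 ^ j := by positivity
  nlinarith [mul_inv_cancel₀ p.ne', mul_le_mul_of_nonneg_left h p.le]

theorem th_ts (hφ : Continuous φ) (h : x ∈ tsupport (th j φ)) : 3 - (2 ^ j)⁻¹ / 2 ≤ φ x :=
  closure_minimal (t := {x | 3 - (2 ^ j)⁻¹ / 2 ≤ φ x}) (fun _ h => le_of_not_ge fun e =>
    mem_support.1 h (cf_zero (by positivity) e)) (isClosed_le continuous_const hφ) h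

theorem th_two (hφ : Continuous φ) (h : x ∈ tsupport (th j φ)) : 2 < φ x := by
  have : (2 ^ j : ℝ)⁻¹ ≤ 1 := inv_le_one_of_one_le₀ (one_le_pow₀ one_le_two)
  linarith [th_ts hφ h]

theorem th_ev (hφ : Continuous φ) (h : x ∈ tsupport (th (j + 1) φ)) : th j φ =ᶠ[𝓝 x] fun _ => 1 := by
  have := th_ts hφ h
  rw [pow_succ, mul_inv] at this
  have p : (0 : ℝ) < (2 ^ j)⁻¹ := by positivity
  exact (hφ.continuousAt.eventually_const_lt (u := 3 - 3 / 8 * (2 ^ j)⁻¹) (by linarith)).mono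
    fun y hy => th_one hy.le

theorem contDiff_cf (k s : ℝ) : ContDiff ℝ ∞ fun t : ℝ => smoothTransition (k * (t - s)) :=
  smoothTransition.contDiff.comp (by fun_prop)

end th

theorem lb_res {ν : Type} [Fintype ν] [DecidableEq ν] {F : Fr I M ι}
    {A : ι → M → En ν} {p : M → En ν} (h : Pp F A p) {f' : M → ℝ}
    (hf' : F.Cb f') {K : ℝ} (hK : ∀ x, ‖f' x‖ ≤ K) (u : Sec I (triv M (Eu ν)))
    (hu : ‖F.toH 0 _ u‖ ≤ 1) : LB F.μ (fun y => ‖u.1 y‖ ^ 2) 1 ∧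
      F.IsRes A (fun y => f' y • p y (u.1 y)) (F.res A fun y => f' y • p y (u.1 y)) ∧
      LB F.μ (fun y => ‖F.res A (fun y => f' y • p y (u.1 y)) y‖ ^ 2) (8 * (K ^ 2 * 1)) := by
  have l : LB F.μ (fun y => ‖u.1 y‖ ^ 2) 1 := ⟨(u.2.1.continuous.norm.pow 2).integrable_of_hasCompactSupport
    (u.2.2.1.mono fun y hy e => hy (by simp [e])), by
      rw [← Cyc79.sq_toH]; exact pow_le_one₀ (norm_nonneg _) hu⟩
  obtain ⟨h1, h2⟩ := Cyc79.is_xO h.toOk (Cb_const 1) hf' h.cp u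
  have c : Continuous fun y => f' y • p y (u.1 y) :=
    (Cb.sm hf').continuous.smul (h.sm.clm_apply u.2.1).continuous
  have c' := h1.1.continuous
  refine ⟨l, h1, (wk0 (g := fun _ _ => 0) (exists_cut (Exh.of_tame h.tame.choose_spec)) h.mc wg_one
    h1.1 c (fun _ => contMDiff_const) (fun x => by simp [h1.2.2 x, dvn, nab])
    (by simpa using (memLp_two_iff_integrable_sq_norm h2.memLp.1).1 h2.memLp)
    ((l.mul (sq_nonneg K)).mono (Continuous.aestronglyMeasurable (by fun_prop))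
      (fun _ => by positivity) fun x => ?_)).mono (Continuous.aestronglyMeasurable (by fun_prop))
    (fun _ => sq_nonneg _) fun x => by simpa using g2_nonneg x⟩
  simp only [one_mul, norm_zero, sq, mul_zero, Finset.sum_const_zero, add_zero, norm_smul]
  have := (norm_nonneg _).trans (hK x)
  rw [mul_mul_mul_comm]
  gcongr <;> first | exact hK x | exact h.norm_le _ _

theorem cu_of_dv {F : Fr I M ι} {φ : M → ℝ} {D : ℕ → ℝ} {c : ℝ} (hφ : F.CBs φ D)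
    (h : ∀ a x, F.D a φ x ≠ 0 → |F.dv a x| ≤ |c|) :
    Cyc79.Cu F (Fintype.card ι * (D 2 ^ 2 + (1 + |c|) * |D 2|)) φ := by
  have h2 : ∀ a y, |F.D a φ y| ≤ |D 2| := fun a y => (hφ.2 2 [a] one_le_two y).trans (le_abs_self _)
  refine ⟨hφ.1, fun x => ?_, fun x => (Finset.abs_sum_le_sum_abs _ _).trans ?_⟩ <;>
    refine (Finset.sum_le_card_nsmul _ _ _ fun a _ => ?_).trans
      (by rw [nsmul_eq_mul, Finset.card_univ])
  · exact le_add_of_le_of_nonneg (sq_le_sq.2 (h2 a x)) (by positivity)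
  · have h1 : |F.D a (F.D a φ) x| ≤ |D 2| := (hφ.2 2 [a, a] le_rfl x).trans (le_abs_self _)
    have h3 : |F.dv a x| * |F.D a φ x| ≤ |c| * |D 2| := by
      by_cases e : F.D a φ x = 0
      · rw [e, abs_zero, mul_zero]; positivity
      · exact mul_le_mul (h a x e) (h2 a x) (abs_nonneg _) (abs_nonneg _)
    refine (abs_add_le (F.D a (F.D a φ) x) (F.dv a x * F.D a φ x)).trans ?_
    rw [abs_mul]
    nlinarith [sq_nonneg (D 2)]

theorem hk_of_norm {X : Cx I M ι 𝒟} {N : 𝒟 → Type} [∀ d, NormedAddCommGroup (N d)]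
    [∀ d, NormedSpace ℝ (N d)] {w w' : 𝒟 → ℝ → ℝ} {k : ℕ} {f : ∀ d, M → N d} {c K : ℝ}
    (h : X.Hk w' k f) (hw : X.Lw c w) (hK : 0 ≤ K)
    (hb : X.Ev fun d x => ‖f d x‖ ≤ K * w d (X.τ d x)) : X.Hk w 0 f :=
  let ⟨L, hL, h⟩ := h.sa.and hb
  Cx.Bd.hk hw ⟨L, hL, K, hK, (h.and hw.2).mono fun _ h x hx =>
    ⟨(h.2 0 _).1.le, (h.1 x hx).1, .zero' (h.1 x hx).2⟩⟩

namespace Tw
open Rsp69.Cx
variable {X : Cx I M ι 𝒟} {T : Tw X lam} {n : ℕ}
  {ν : 𝒟 → Type} [∀ d, Fintype (ν d)] [∀ d, DecidableEq (ν d)]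
  {A : ∀ d i, ι → (T.S d i).M → En (ν d)} {p : T.Sc fun d => En (ν d)} {f f' φ : T.Fn}
  {φ₀ : 𝒟 → M → ℝ} {C : ℕ → ℝ}

variable (T) in
/-- pairs of connections with a parallel projector -/
structure PA (n : ℕ) (A : ∀ d i, ι → (T.S d i).M → En (ν d)) (p : T.Sc fun d => En (ν d)) :
    Prop where
  hn : 8 ≤ n
  pp : ∀ᶠ d in X.l, ∀ i, Pp (T.F d i) (A d i) (p d i) ∧ Pq (T.F d i) (A d i) (p d i)
  A : ∀ a, T.EL n fun d i => A d i a
  p : T.EL n p

variable (T) in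
/-- a separating function -/
structure Sp (n : ℕ) (f' φ : T.Fn) (φ₀ : 𝒟 → M → ℝ) (C : ℕ → ℝ) : Prop where
  r : T.EC n f'
  cb : ∀ᶠ d in X.l, (X.F d).CBs (φ₀ d) C ∧ ∀ i, (T.F d i).CBs (φ d i) C ∧
    ∀ x, f' d i x ≠ 0 → φ d i x ≤ 0
  ev : X.Ev fun d x => ∀ i, φ d i (T.ψ d i x) = φ₀ d x
  dv : ∀ᶠ d in X.l, ∀ i a x, (T.F d i).D a (φ d i) x ≠ 0 → |(T.F d i).dv a x| ≤ |X.C 0|

variable (T) in
/-- separated supports -/
def SepT (n : ℕ) (f f' : T.Fn) : Prop := T.EC n f ∧ ∃ φ φ₀ C, T.Sp n f' φ φ₀ C ∧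
  ∀ᶠ d in X.l, ∀ i x, f d i x ≠ 0 → 3 ≤ φ d i x

namespace Sp
variable (s : T.Sp n f' φ φ₀ C)
include s

theorem bk (j k : ℕ) : Bk (N := fun _ => ℝ) (pre X.F) X.l (un 𝒟 M) 1 k fun d => th j (φ₀ d) :=
  have e := Bk.comp k (contDiff_cf (8 * 2 ^ j) (3 - (2 ^ j)⁻¹ / 2)) (S := un 𝒟 M)
    (.of_CBs (s.cb.mono fun _ h => h.1)); e

theorem one (j : ℕ) : ∀ᶠ d in X.l, ∀ x ∈ tsupport (th (j + 1) (φ₀ d)),
    th j (φ₀ d) =ᶠ[𝓝 x] fun _ => 1 := s.cb.mono fun _ h _ => th_ev h.1.1.continuous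

theorem sep : ∀ᶠ d in X.l, ∀ i, Sep (T.F d i).toPre (cf 1 1 (φ d i)) (f' d i) :=
  (s.cb.and s.r.q).mono fun d h i => ⟨Cb_nem (contDiff_cf _ _) ⟨_, (h.1.2 i).1⟩, h.2 i, φ d i,
    ⟨_, (h.1.2 i).1⟩, fun _ e => le_of_not_ge fun k => e (cf_zero zero_le_one k), (h.1.2 i).2⟩

theorem two (j : ℕ) : X.Ev fun d x => x ∈ tsupport (th j (φ₀ d)) → ∀ i, f' d i (T.ψ d i x) = 0 ∧
    ∀ᶠ y in 𝓝 (T.ψ d i x), cf 1 1 (φ d i) y = 1 :=
  (s.ev.and (.of_ev (P := fun _ _ => _) (s.cb.mono fun _ h _ => h))).mono fun d x h hx i =>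
    have e : 2 < φ d i (T.ψ d i x) := h.1 i ▸ th_two h.2.1.1.continuous hx
    ⟨by_contra fun k => by linarith [(h.2.2 i).2 _ k],
      ((h.2.2 i).1.1.continuous.continuousAt.eventually_const_lt e).mono fun y hy =>
        cf_one (by linarith)⟩

theorem cm {𝒟' : Type*} (σ : 𝒟' → 𝒟) : (T.cm σ).Sp n (fun e => f' (σ e)) (fun e => φ (σ e))
    (fun e => φ₀ (σ e)) C :=
  have t := tendsto_comap (f := σ) (x := X.l)
  ⟨⟨t.eventually s.r.q, s.r.u.imp fun _ h => ⟨h.1, t.eventually h.2⟩, s.r.el.cm σ⟩,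
    t.eventually s.cb, s.ev.cm σ, t.eventually s.dv⟩

end Sp

namespace PA
variable (h : T.PA n A p) (H : T.HD ν)
include h

theorem eng : T.Eng (V := fun d => Fm (ν d) (H.H d)) (fun d i => QI (T.F d i) (p d i)) n
    fun d i => aA (H.H d) (A d i) :=
  ⟨h.hn, fun a => (h.A a).clm (L := fun d => amp (H.H d)) (.of_le 1 fun _ => norm_amp1),
    h.pp.mono fun _ h i => ⟨(h i).2.mcA _, (h i).1.cls⟩⟩

theorem bsU {g : T.Fn} (s : T.Sp n f' φ φ₀ C) (hg : T.U g) (hs : ∀ᶠ d in X.l, ∀ i,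
    Continuous (g d i) ∧ ∀ x, g d i x ≠ 0 → 1 ≤ φ d i x) : T.U (N := fun d => Fm (ν d) (H.H d))
    fun d i y => fb (H.j d i) (bs (T.F d i) (A d i) (p d i) (g d i) (f' d i) y) := by
  obtain ⟨K, hK, h1⟩ := s.r.u
  obtain ⟨K', hK', h2⟩ := hg
  have p : 0 ≤ Fintype.card ι * (C 2 ^ 2 + (1 + |X.C 0|) * |C 2|) := by positivity
  refine ⟨|Cyc79.kB (|T.L| + 1) (1 + K + K' +
    Fintype.card ι * (C 2 ^ 2 + (1 + |X.C 0|) * |C 2|))|, abs_nonneg _, ?_⟩
  filter_upwards [h1, h2, hs, h.pp, s.cb, s.r.q, T.l4, H.iso, s.dv]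
    with d h1 h2 hs hp hc hq ht hi hd i y
  refine (Cyc79.norm_fb_le _ _).trans ((mul_le_of_le_one_left (norm_nonneg _)
    (norm_iso (hi i))).trans (le_trans ?_ (le_abs_self _)))
  exact (hp i).2.bs_kB ((ht i).mono (by linarith [le_abs_self T.L]))
    (by positivity) ⟨by linarith, (hs i).1, (Cb.sm (hq i)).continuous,
      fun x => (h2 i x).trans (by linarith), fun x => (h1 i x).trans (by linarith), _,
      (cu_of_dv (hc.2 i).1 (hd i)).mono (by linarith), (hs i).2, (hc.2 i).2⟩ y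

theorem cm {𝒟' : Type*} (σ : 𝒟' → 𝒟) : (T.cm σ).PA n (fun e => A (σ e)) fun e => p (σ e) :=
  ⟨h.hn, (tendsto_comap (f := σ)).eventually h.pp, fun a => (h.A a).cm σ, h.p.cm σ⟩

theorem st1 (s : T.Sp n f' φ φ₀ C) {u : ∀ d i, Sec (T.S d i).I (triv (T.S d i).M (Eu (ν d)))}
    (hu : ∀ᶠ d in X.l, ∀ i, ‖(T.F d i).toH 0 _ (u d i)‖ ≤ 1)
    (e : X.Ev fun d x => (u d true).1 (T.ψ d true x) = (u d false).1 (T.ψ d false x)) :
    X.Pr (N := fun d => Eu (ν d)) T.ρ 4 fun d i x => th 10 (φ₀ d) x • (T.F d i).res (A d i)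
      (fun y => f' d i y • p d i y ((u d i).1 y)) (T.ψ d i x) := by
  have hn := h.hn
  obtain ⟨n, rfl⟩ : ∃ m, n = m + 1 := ⟨n - 1, by omega⟩
  obtain ⟨K, hK, h1⟩ := s.r.u
  have k := (((h.pp.and s.r.q).and h1).and hu).mono fun d h i =>
    lb_res (h.1.1.1 i).1 (h.1.1.2 i) (h.1.2 i) (u d i) (h.2 i)
  have sk := h.pp.mono fun e h i => (h i).1.sk
  have e1 : T.EL (N := fun d => Eu (ν d)) 0 fun d i => (u d i).1 :=
    Pr.of_eq T.lw (fun i => hk0 (g := fun d i => (u d i).1)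
      (k.mono fun d h => ⟨(u d i).2.1, (h i).1⟩)) e
  have e2 := EL.res (V := fun d => Eu (ν d)) (by omega) n.zero_le h.A ((sk.and k).mono fun e h i =>
    ⟨h.1 i, (h.2 i).2.1⟩) (fun i => hk0 (N := fun d => Eu (ν d)) (g := fun d i => (T.F d i).res (A d i)
      fun y => f' d i y • p d i y ((u d i).1 y)) (k.mono fun e h => ⟨(h i).2.1.1, (h i).2.2⟩))
    (s.r.el.smul (by omega) (Nat.zero_le _) (h.p.app (by omega) (Nat.zero_le _) e1))
  exact lrT (V := fun d => Eu (ν d)) (k := 2) (by omega) (by omega) h.A sk s.bk s.one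
    (((s.two 1).and (.of_ev (P := fun _ _ => _) (k.mono fun _ h _ => h))).mono
      fun e x h hx i => ((h.2 i).2.1.2.2 _).trans (by simp only [(h.1 hx i).1, zero_smul]))
    ((Pr.same T.lw (Hk.of_Bk (s.bk 0 7))).smul le_rfl (Nat.zero_le _) (e2.of_le (Nat.zero_le _)))

/-- **stage 1**: testing against a dense set -/
theorem bs0 (s : T.Sp n f' φ φ₀ C) : X.Pr (N := fun d => Fm (ν d) (H.H d)) T.ρ 0
    fun d i x => th 10 (φ₀ d) x • fb (H.j d i)
      (bs (T.F d i) (A d i) (p d i) (cf 1 1 (φ d i)) (f' d i) (T.ψ d i x)) := by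
  have sm : ∀ᶠ d in X.l, ∀ i, Sm (T.S d i).I fun y => fb (H.j d i)
      (bs (T.F d i) (A d i) (p d i) (cf 1 1 (φ d i)) (f' d i) y) :=
    .of_forall fun d i => (fb (H.j d i)).contMDiff.comp (Cyc79.sm_fld _ _)
  have hb := fun i => (Hk.of_Bk (s.bk 10 7)).smulR le_rfl (Nat.zero_le _)
    ((h.bsU H s ⟨1, zero_le_one, .of_forall fun _ _ _ => Cyc79.cf_abs _ _ _⟩ (s.sep.and s.cb |>.mono
      fun d h i => ⟨(Cb.sm (h.1 i).1).continuous, fun _ e => le_of_not_ge fun k =>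
        e (cf_zero zero_le_one k)⟩)).hk sm i)
  refine ⟨hb, ?_⟩
  obtain ⟨L, hL, hd⟩ := H.dn
  let σ : {e : Σ d, H.H d × ∀ i, Sec (T.S d i).I (triv (T.S d i).M (Eu (ν d))) // ‖e.2.1‖ ≤ 1 ∧
      (∀ i, adjoint (H.j e.1 i) e.2.1 = (T.F e.1 i).toH 0 _ (e.2.2 i)) ∧ ∀ x ∈ X.bd L e.1,
        (e.2.2 true).1 (T.ψ e.1 true x) = (e.2.2 false).1 (T.ψ e.1 false x)} → 𝒟 := fun e => e.1.1
  have e3 := (h.cm σ).st1 (s.cm σ) (u := fun e => e.1.2.2)
    (((tendsto_comap (f := σ)).eventually H.iso).mono fun e h i => (congrArg _ (e.2.2.1 i)).ge.trans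
      ((ContinuousLinearMap.le_opNorm _ _).trans (mul_le_one₀
        ((LinearIsometryEquiv.norm_map _ _).trans_le (norm_iso (h i))) (norm_nonneg _) e.2.1)))
    ⟨L, hL, .of_forall fun e => e.2.2.2⟩
  obtain ⟨L₁, hL₁, K₁, hK₁, e4⟩ := Hk.bd (k := 0) e3.d
  have am : Ub X.l fun d => ‖amp (κ := ν d) (H.H d)‖ := .of_le 1 fun _ => norm_amp1
  have hn := h.hn
  have e6 := Hk.bil am h.p.d (hb false) (k := 0) (Nat.zero_le _) le_rfl (by omega)
  simp only [Pi.one_apply, mul_one] at e6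
  have e7 := Hk.bilR (k := 0) (by omega) (Nat.zero_le _) am (h.p.b true) ((hb true).sub (hb false))
  obtain ⟨L₂, hL₂, e5⟩ := s.two 10
  refine ((hk_of_norm e7 T.lw (K := 4 * K₁) (by positivity) ⟨L₁ + L₂, by positivity, ?_⟩).add e6).congr
    (.of_ev ((h.pp.and s.sep).mono fun d h x => ?_))
  swap
  · have q := fun i => (((h.1 i).1.qi_bs (h.2 i)).fb (H.j d i)).2 (T.ψ d i x)
    exact amp_split _ _ (q true) (q false)
  filter_upwards [eventually_comap.1 e4, e5, hd, h.pp, s.sep] with d e4 e5 hd hp sp x hx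
  have e5 := e5 x (Nd18.Dp_mono (by linarith) hx)
  refine (norm_of_dense hd ((hp true).2.sym _) ((hp true).2.idem _)
    ((hp true).2.rk _) fun k ⟨u, u1, u2⟩ hk => ?_).trans_eq (mul_assoc ..).symm
  have c : ∀ i (v : Fm (ν d) _), ct k (fb (H.j d i) v) = ct ((T.F d i).toH 0 _ (u i)) v :=
    fun i v => by rw [← u1, ← Cyc79.ct_fb, ContinuousLinearMap.adjoint_adjoint]
  refine le_of_eq_of_le (congrArg _ ?_)
    (e4 ⟨⟨d, k, u⟩, hk, u1, u2⟩ rfl x (Nd18.Dp_mono (by linarith) hx)).2.2.bd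
  simp only [map_sub, map_smul, c, fun i => Cyc79.ct_bs (hp i).1.toOk (sp i) (hp i).1.cp]
  by_cases e : th 10 (φ₀ d) x = 0
  · simp [σ, e]
  · simp only [fun i => (e5 (subset_tsupport _ e) i).2.self_of_nhds, one_smul]
    rfl

/-- **stage 2**: the transported base fields -/
theorem bsE (s : T.SepT n f f') : (∀ᶠ d in X.l, ∀ i, Sep (T.F d i).toPre (f d i) (f' d i)) ∧
    T.EP (N := fun d => Fm (ν d) (H.H d)) (fun d i => QI (T.F d i) (p d i)) n
      fun d i y => fb (H.j d i) (bs (T.F d i) (A d i) (p d i) (f d i) (f' d i) y) := by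
  obtain ⟨hf, φ, φ₀, C, s, h3⟩ := s
  have hn := h.hn
  obtain ⟨n, rfl⟩ : ∃ m, n = m + 2 := ⟨n - 2, by omega⟩
  have sp : ∀ᶠ d in X.l, ∀ i, Sep (T.F d i).toPre (f d i) (f' d i) :=
    (((s.cb.and s.r.q).and hf.q).and h3).mono fun d h i => ⟨h.1.2 i, h.1.1.2 i, φ d i,
      ⟨_, (h.1.1.1.2 i).1⟩, fun x e => by linarith [h.2 i x e], (h.1.1.1.2 i).2⟩
  refine ⟨sp, (sp.and h.pp).mono fun d h i => ((h.2 i).1.qi_bs (h.1 i)).fb _, h.bsU H s hf.u
    ((hf.q.and h3).mono fun d h i => ⟨(Cb.sm (h.1 i)).continuous, fun x e => by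
      linarith [h.2 i x e]⟩), ?_⟩
  have e := lrT (k := n) (n := n + 1) (by omega) (by omega) (h.eng H).el
    ((h.eng H).cls.mono fun _ h i => (h i).1.sk) (θ := fun j d => th (j + 10) (φ₀ d))
    (R := fun d i y => fb (H.j d i) (bs (T.F d i) (A d i) (p d i) (cf 1 1 (φ d i)) (f' d i) y))
    (fun j => s.bk _) (fun j => by simpa only [add_right_comm j 1] using s.one (j + 10))
    (((s.two (1 + 10)).and (.of_ev (P := fun _ _ => _) ((h.pp.and s.sep).mono fun _ h _ => h))).mono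
      fun d x h hx i => ?_) (h.bs0 H s)
  · refine (Pr.smul (by omega) le_rfl hf.el e).congr ((s.ev.and (.of_ev (P := fun _ _ => _)
      ((((h.pp.and s.sep).and sp).and h3).mono fun _ h _ => h))).mono fun d x h i => ?_)
    beta_reduce
    rw [Cyc79.bs_mul (h.2.1.1.1 i).1.toOk (h.2.1.1.2 i) (h.2.1.1.1 i).1.cp (h.2.1.2 i)
      (g := f d i) fun z => ?_, map_smul]
    · by_cases e : f d i (T.ψ d i x) = 0
      · simp [e]
      · rw [th_one (le_trans (sub_le_self _ (by positivity)) (h.1 i ▸ h.2.2 i _ e)), one_smul]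
    · by_cases e : f d i z = 0
      · simp [e]
      · rw [cf_one (by linarith [h.2.2 i z e]), mul_one]
  · rw [Eqv71.itw_lap (frm _) (.of_forall (Cyc79.itw_fb _)) contMDiffAt_const
      (fun a => Cyc79.sm_aA (h.2.1 i).1.mc.sm a _) (Cyc79.fi_bs (h.2.1 i).1.toOk (h.2.2 i) (h.2.1 i).1.cp
        |>.sm _), ← map_add,
      Cyc79.bs_hom (h.2.1 i).1.toOk (h.2.1 i).1.cp (h.2.2 i) (h.1 hx i).2, map_zero]

end PA
end Tw

end Crest.Agent.X212.Rsv69
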