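import Crest.Agent.X212.Rsv69.Tw
import Crest.Agent.X212.Cyc79.Ub

/-! Row 212, RESP (helper69): pairs of configurations, their densities and seeds. -/

set_option autoImplicit false
set_option linter.unusedSectionVars false
noncomputable section
open scoped Manifold ContDiff Topology InnerProductSpace
open MeasureTheory Set Function Filter Real

namespace Crest.Agent.X212.Rsv69
open Rsp69
open An Sob92 Wz78 Dgr80
open Mp86 (Mc nf)
open Wrd81 (wd)

variable {E : Type} [NormedAddCommGroup E] [NormedSpace ℝ E] [FiniteDimensional ℝ E]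
  [MeasurableSpace E] [BorelSpace E]
  {HM : Type} [TopologicalSpace HM] {I : ModelWithCorners ℝ E HM} [I.Boundaryless]
  {M : Type} [TopologicalSpace M] [ChartedSpace HM M] [IsManifold I ∞ M]
  [MeasurableSpace M] [T2Space M] [BorelSpace M] [SecondCountableTopology M]
  {ι : Type} [Fintype ι] {𝒟 : Type*} {lam : Type} [Fintype lam]

theorem cls_cb {V : Type} [NormedAddCommGroup V] [InnerProductSpace ℝ V] [FiniteDimensional ℝ V]
    {F : Fr I M ι} {A : ι → M → CL V V} (h : Cyc79.Ok F A) : Mc I A ∧ Cls F A F.Cb :=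
  have k := fun u (hu : F.Cb u) => Mon62.re_tame h.tame.choose_spec h.cb h.sk hu
  ⟨h.mc, fun _ => Cb.sm, fun u hu => (k u hu).1, fun u hu => (k u hu).2⟩

/-- `u ⊗ v*` as a bilinear map -/
def rkL (κ : Type) [Fintype κ] [DecidableEq κ] : CL (Eu κ) (CL (Eu κ) (HS κ)) :=
  (ContinuousLinearMap.compL ℝ (Eu κ) (En κ) (HS κ) hsL) ∘L
    (((ContinuousLinearMap.smulRightL ℝ (Eu κ) (Eu κ)) ∘L innerSL ℝ).flip)

section norms
variable {κ : Type} [Fintype κ] [DecidableEq κ]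

theorem norm_rkL : ‖rkL κ‖ ≤ 1 := ContinuousLinearMap.opNorm_le_bound₂ _ zero_le_one fun u v =>
  (norm_hsL_rk1 u v).trans_le (by rw [one_mul])

theorem norm_opL : ‖opL (κ := κ)‖ ≤ 1 := ContinuousLinearMap.opNorm_le_bound₂ _ zero_le_one
  fun u v => (norm_opL_apply u v).trans_eq (by rw [one_mul])

theorem norm_adR : ‖adR κ‖ ≤ 2 :=
  ContinuousLinearMap.opNorm_le_bound _ zero_le_two Cyc79.norm_adR

end norms

/-- `1 / √(1 + t)` for `t ≥ 0` -/
def gN (t : ℝ) : ℝ := (√(1 + t * smoothTransition (t + 1)))⁻¹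

theorem contDiff_gN : ContDiff ℝ ∞ gN := by
  have p : ∀ t : ℝ, 0 < 1 + t * smoothTransition (t + 1) := fun t => by
    by_cases h : t + 1 ≤ 0
    · rw [smoothTransition.zero_of_nonpos h]; norm_num
    · have h0 := smoothTransition.nonneg (t + 1)
      have h1 := smoothTransition.le_one (t + 1)
      rcases le_total 0 t with e | e
      · positivity
      · nlinarith [mul_le_mul_of_nonpos_left h1 e]
  exact ((contDiff_const.add (contDiff_id.mul (smoothTransition.contDiff.comp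
    (contDiff_id.add contDiff_const)))).sqrt fun t => (p t).ne').inv fun t => (sqrt_pos.2 (p t)).ne'

theorem gN_eq {V : Type} [NormedAddCommGroup V] [InnerProductSpace ℝ V] (v : V) :
    gN ⟪v, v⟫_ℝ = (√(1 + ‖v‖ ^ 2))⁻¹ := by
  rw [gN, smoothTransition.one_of_one_le (by linarith [real_inner_self_nonneg (x := v)]), mul_one,
    real_inner_self_eq_norm_sq]

namespace Tw
open Rsp69.Cx
variable {X : Cx I M ι 𝒟} (T : Tw X lam)

/-- pairs of configurations in the same fibre -/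
structure CF (N : 𝒟 → ℕ) where
  r : 𝒟 → Bool → ℕ
  J : ∀ d, En (Fin (N d))
  p : T.Sc fun d => En (Fin (N d))
  ρ : ∀ d i, ι → (T.S d i).M → En (Fin (N d))
  j : T.Sc fun d => CL (Eu lam) (En (Fin (N d)))
  W : ∀ d i, ι → (T.S d i).M → En (Fin (N d))
  Φ : T.Sc fun d => Eu (Fin (N d))
  z : ∀ d i, EuclideanSpace ℂ (Fin (r d i))

/-- functions whose differential lies in the class -/
def Cd (n : ℕ) (g : T.Fn) : Prop := ∀ a, T.EC n fun d i => (T.F d i).D a (g d i)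

/-- admissible letters of spinor words -/
inductive LtY (n : ℕ) : (∀ d i, Lt (T.S d i).M) → Prop
  | mul {f} : T.EC n f → LtY n fun d i => .mul (f d i)
  | cl {g} : T.Cd n g → LtY n fun d i => .cl (g d i)
  | im : LtY n fun _ _ => .im
  | G : LtY n fun _ _ => .G

/-- admissible letters of adjoint words -/
inductive LaY (n : ℕ) : (∀ d i, La (T.S d i).M) → Prop
  | mul {f} : T.EC n f → LaY n fun d i => .mul (f d i)
  | G : LaY n fun _ _ => .G

variable {T} {N : 𝒟 → ℕ} {n k : ℕ}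

theorem EC.mul (hn : 7 ≤ n) {f g : T.Fn} (h : T.EC n f) (h' : T.EC n g) :
    T.EC (N := fun _ => ℝ) n fun d i x => f d i x * g d i x := h.smul hn le_rfl h'

theorem EL.c (a b l : ι) : T.EL (N := fun _ => ℝ) k fun d i => (T.F d i).c a b l :=
  (Pr.same T.lw (Hk.of_CBs (N := fun _ => ℝ) (f := fun d => (X.F d).c a b l)
    (X.tame.mono fun _ h => h.c a b l))).congr
      (T.rel.mono fun _ _ h i => (h.2 i).1.c (h.2 i).2.1 a b l)

section nrm
variable {V : 𝒟 → Type} [∀ d, NormedAddCommGroup (V d)] [∀ d, InnerProductSpace ℝ (V d)]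
  (hn : 8 ≤ n) {u : T.Sc V}
include hn

theorem EC.nf (h : T.EC n u) :
    T.EC (N := fun _ => ℝ) n fun d i x => (√(1 + ‖u d i x‖ ^ 2))⁻¹ :=
  ((h.inner (by omega) h).comp contDiff_gN hn).congr' fun _ _ _ => gN_eq _

theorem EC.nrm (h : T.EC n u) : T.EC n fun d i x => nrm (u d i x) :=
  (h.nf hn).smul (by omega) le_rfl h

theorem EL.nrm (h : T.EL n u) : T.EL n fun d i x => nrm (u d i x) :=
  (((h.inner (by omega) h).comp contDiff_gN hn).congr' fun _ _ _ => gN_eq _).smul (by omega) le_rfl h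

end nrm

theorem slk_mul {V : 𝒟 → Type} [∀ d, NormedAddCommGroup (V d)] [∀ d, InnerProductSpace ℝ (V d)]
    [∀ d, CompleteSpace (V d)] (hn : 7 ≤ n) {f : T.Fn} (h : T.EC n f) :
    T.SLk (fun d i => (T.F d i).Cb) n fun d i => .op fun x => f d i x • (1 : CL (V d) (V d)) :=
  .op hn (h.smul hn le_rfl (.const (.of_le 1 fun _ => ContinuousLinearMap.norm_id_le)))

namespace CF
variable (κ : T.CF N)

/-- spinors -/
abbrev SV (_ : T.CF N) : 𝒟 → Type := fun d => Eu (Fin (N d))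
/-- endomorphisms -/
abbrev SE (_ : T.CF N) : 𝒟 → Type := fun d => En (Fin (N d))
/-- adjoint sections -/
abbrev SA (_ : T.CF N) : 𝒟 → Type := fun d => HS (Fin (N d))
/-- adjoint one-forms -/
abbrev S1 (_ : T.CF N) : 𝒟 → Type := fun d => Fm ι (HS (Fin (N d)))
/-- adjoint two-forms -/
abbrev S2 (_ : T.CF N) : 𝒟 → Type := fun d => Fm (ι × ι) (HS (Fin (N d)))

abbrev m (d : 𝒟) (i : Bool) : Md (T.S d i).M ι lam := ⟨N d, κ.J d, κ.p d i, κ.ρ d i, κ.j d i⟩

abbrev c (d : 𝒟) (i : Bool) : Cfg (T.S d i).M ι lam (κ.r d i) := ⟨κ.m d i, κ.W d i, κ.Φ d i, κ.z d i⟩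

abbrev A (d : 𝒟) (i : Bool) : ι → (T.S d i).M → En (Fin (N d) × Fin (N d)) :=
  (κ.m d i).adW (κ.W d i)

/-- contractions of the curvature -/
abbrev fg (φ : ι × ι → T.Fn) : T.Sc κ.SA := fun d i x =>
  ∑ s : ι × ι, φ s d i x • (κ.m d i).Fg (T.F d i) (κ.W d i) x s

/-- densities with gradients -/
structure DenS (n : ℕ) (D : ∀ d i, Den (T.S d i).M ι lam (κ.r d i)) : Prop where
  h : T.EC (N := fun _ => ℝ) n fun d i => (D d i).h (κ.c d i)
  gA : ∀ f, T.EC n f → T.EL (N := κ.S1) n fun d i => (D d i).gA (κ.c d i) (f d i)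
  gP : ∀ f, T.EC n f → T.EL (N := κ.SV) n fun d i => (D d i).gP (κ.c d i) (f d i)

/-- seeds with gradients -/
structure SedS (n : ℕ) (S : ∀ d i, Sed (T.S d i).M ι lam (κ.r d i)) : Prop where
  s : T.EC (N := κ.SA) n fun d i => (S d i).s (κ.c d i)
  sA : ∀ l : T.Sc κ.SA, T.EC n l → T.EL (N := κ.S1) n fun d i => (S d i).sA (κ.c d i) (l d i)
  sP : ∀ l : T.Sc κ.SA, T.EC n l → T.EL (N := κ.SV) n fun d i => (S d i).sP (κ.c d i) (l d i)

/-- the hypotheses on a pair; the curvature is controlled over the sets `Z` -/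
structure OK (Z : ∀ d i, Set (T.S d i).M) (n : ℕ) : Prop where
  hn : 8 ≤ n
  gd : ∀ᶠ d in X.l, ∀ i, Gd (T.S d i).B (T.S d i).G (κ.c d i)
  J : Ub X.l fun d => ‖κ.J d‖
  Wh : ∀ a, T.EL (N := κ.SA) n fun d i x => hsL (κ.W d i a x)
  Φ : T.EC n κ.Φ
  ρ : ∀ a, T.EC n fun d i => κ.ρ d i a
  j : T.EC n κ.j
  pg : T.EC (N := fun d => En (Fin (N d) × Fin (N d))) n fun d i => (κ.m d i).pg
  cv : ∀ φ : ι × ι → T.Fn, (∀ s, T.EC n (φ s)) → (∀ s d i, ∀ x ∉ Z d i, φ s d i x = 0) →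
    (∀ i, X.Hk 1 0 fun d x => (T.F d i).res (κ.A d i) (κ.fg φ d i) (T.ψ d i x)) ∧
      T.U (N := κ.SA) fun d i => (T.F d i).res (κ.A d i) ((T.F d i).res (κ.A d i) (κ.fg φ d i))

variable {κ}

theorem DenS.sed (hn : 7 ≤ n) {S S' : ∀ d i, Sed (T.S d i).M ι lam (κ.r d i)} (h : κ.SedS n S)
    (h' : κ.SedS n S') : κ.DenS n fun d i => Den.sed (S d i) (S' d i) :=
  ⟨h.s.inner hn h'.s, fun _ hf => (h.sA _ (hf.smul hn le_rfl h'.s)).add
    (h'.sA _ (hf.smul hn le_rfl h.s)), fun _ hf => (h.sP _ (hf.smul hn le_rfl h'.s)).add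
    (h'.sP _ (hf.smul hn le_rfl h.s))⟩

namespace OK
variable {Z : ∀ d i, Set (T.S d i).M} (h : κ.OK Z n) {u v : ∀ d i, SW (T.S d i).M}
  {w : ∀ d i, List (La (T.S d i).M)} {f g g' : T.Fn}
include h

theorem h7 : 7 ≤ n := h.hn.trans' (by omega)

theorem W (a : ι) : T.EL (N := κ.SE) n fun d i => κ.W d i a :=
  ((h.Wh a).clm (L := fun _ => opL) (.of_le 1 fun _ => norm_opL)).congr' fun _ _ _ => opL_hsL _

theorem engV : T.Eng (V := κ.SV) (fun d i => (T.F d i).Cb) n κ.W :=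
  ⟨h.hn, h.W, h.gd.mono fun _ h i => cls_cb (h i).ppS.toOk⟩

theorem elA (a : ι) : T.EL (N := fun d => En (Fin (N d) × Fin (N d))) n fun d i => κ.A d i a :=
  ((h.Wh a).clm (L := fun _ => adR _) (.of_le 2 fun _ => norm_adR)).congr' fun _ _ _ =>
    congrArg adc (opL_hsL _)

theorem engA : T.Eng (V := κ.SA) (fun d i => (T.F d i).Cb) n κ.A :=
  ⟨h.hn, h.elA, h.gd.mono fun _ h i => cls_cb (h i).pp.toOk⟩

theorem ltS (hu : Fa (T.LtY n) u) : Fa (T.SLk (V := κ.SV) (fun d i => (T.F d i).Cb) n)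
    fun d i => (u d i).map (ltS (T.F d i) (κ.c d i)) := hu.map fun t ht => by
  cases ht with
  | mul hf => exact slk_mul h.h7 hf
  | cl hg => exact .op h.h7 (.sum _ fun a _ => (hg a).smul h.h7 le_rfl (h.ρ a))
  | im => exact .op h.h7 (.const h.J)
  | G => exact .inr rfl

theorem laS (hw : Fa (T.LaY n) w) : Fa (T.SLk (V := κ.SA) (fun d i => (T.F d i).Cb) n)
    fun d i => (w d i).map (laS (κ.c d i)) := hw.map fun t ht => by
  cases ht with
  | mul hf => exact slk_mul h.h7 hf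
  | G => exact .inr rfl

theorem wdV (hu : Fa (T.LtY n) u) {s : T.Sc κ.SV} (hs : T.EC n s) :
    T.EC (N := κ.SV) n fun d i => wd ((κ.c d i).lt (T.F d i)) (s d i) (u d i) :=
  (h.engV.wd (h.ltS hu) hs).congr' fun d i => congrFun (lt_eq (T.F d i) (κ.c d i) _ _).symm

theorem wdA (hw : Fa (T.LaY n) w) {s : T.Sc κ.SA} (hs : T.EC n s) :
    T.EC (N := κ.SA) n fun d i => wd ((κ.c d i).la (T.F d i)) (s d i) (w d i) :=
  (h.engA.wd (h.laS hw) hs).congr' fun d i => congrFun (la_eq (T.F d i) (κ.c d i) _ _).symm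

theorem sw (hu : Fa (T.LtY n) u) : T.EC (N := κ.SV) n fun d i => (κ.c d i).sw (T.F d i) (u d i) :=
  h.wdV hu h.Φ

theorem nP : T.EC (N := κ.SV) n fun d i => nP (κ.c d i) := h.Φ.nrm h.hn

theorem nw (hu : Fa (T.LtY n) u) : T.EC (N := κ.SV) n fun d i => nw (T.F d i) (κ.c d i) (u d i) :=
  h.wdV hu h.nP

theorem dn {l : T.Sc κ.SV} (hl : T.EC n l) : T.EL (N := κ.SV) n fun d i => dn (κ.c d i) (l d i) :=
  have e := h.Φ.nf h.hn
  ((e.smul h.h7 le_rfl hl).sub (((e.comp (contDiff_id.pow 3) h.hn).mul h.h7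
    (h.Φ.inner h.h7 hl)).smul h.h7 le_rfl h.Φ)).el

theorem pk_one : T.EC (N := κ.SE) n fun d i => pk (κ.c d i) .one :=
  .const (c := fun _ => 1) (.of_le 1 fun _ => ContinuousLinearMap.norm_id_le)

theorem pk_re {s : T.Sc fun _ => Eu lam} (hs : T.EC n s) :
    T.EC (N := κ.SE) n fun d i => pk (κ.c d i) (.re (s d i)) :=
  h.j.app h.h7 le_rfl hs

theorem pk_im {s : T.Sc fun _ => Eu lam} (hs : T.EC n s) :
    T.EC (N := κ.SE) n fun d i => pk (κ.c d i) (.im (s d i)) :=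
  have e := (EC.const h.J).bil h.h7 le_rfl (B := fun d => ContinuousLinearMap.mul ℝ (κ.SE d))
    (.of_le 1 fun d => ContinuousLinearMap.opNorm_mul_le ℝ (κ.SE d)) (h.pk_re hs)
  e.congr' fun _ _ _ => rfl

theorem denSw {P : ∀ d i, Pk (T.S d i).M lam}
    (hP : T.EC (N := κ.SE) n fun d i => pk (κ.c d i) (P d i))
    (hu : Fa (T.LtY n) u) (hv : Fa (T.LtY n) v) :
    κ.DenS n fun d i => Den.sw (T.F d i) (P d i) (u d i) (v d i) :=
  have m : ∀ {f} {u : ∀ d i, SW (T.S d i).M}, T.EC n f → Fa (T.LtY n) u →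
      T.EC (N := κ.SV) n fun d i x =>
        f d i x • pk (κ.c d i) (P d i) x (Dgr80.nw (T.F d i) (κ.c d i) (u d i) x) := fun hf hu =>
    hf.smul h.h7 le_rfl (hP.app h.h7 le_rfl (h.nw hu))
  ⟨(hP.app h.h7 le_rfl (h.nw hu)).inner h.h7 (h.nw hv),
    fun _ hf => (h.engV.gc (r := fun _ => opL) (.of_le 1 fun _ => norm_opL) h.nP
      (h.ltS hu) (m hf hv)).add (h.engV.gc (r := fun _ => opL)
        (.of_le 1 fun _ => norm_opL) h.nP (h.ltS hv) (m hf hu)),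
    fun _ hf => (h.dn (h.engV.bk (h.ltS hu) (m hf hv))).add
      (h.dn (h.engV.bk (h.ltS hv) (m hf hu)))⟩

theorem sedWd {S : ∀ d i, Sed (T.S d i).M ι lam (κ.r d i)} (hS : κ.SedS n S)
    (hw : Fa (T.LaY n) w) : κ.SedS n fun d i => (S d i).wd (T.F d i) (w d i) :=
  ⟨h.wdA hw hS.s, fun _ hl => (h.engA.gc (r := fun _ => adR _) (.of_le 2 fun _ => norm_adR)
    hS.s (h.laS hw) hl).add
    (hS.sA _ (h.engA.bk (h.laS hw) hl)), fun _ hl => hS.sP _ (h.engA.bk (h.laS hw) hl)⟩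

theorem Fg (hk : k + 1 ≤ n) (s : ι × ι) :
    T.EL (N := κ.SA) k fun d i x => (κ.m d i).Fg (T.F d i) (κ.W d i) x s :=
  have W := fun a => (h.Wh a).of_le (Nat.le_of_succ_le hk)
  h.pg.el.app h.h7 (by omega) ((((((((h.Wh s.2).of_le hk).D s.1).sub (((h.Wh s.1).of_le hk).D s.2)).add
    ((h.elA s.1).app h.h7 (by omega) (W s.2))).sub (.sum Finset.univ fun l _ =>
      (EL.c s.1 s.2 l).smul h.h7 (by omega) (W l))).congr (h.gd.mono fun d h i => funext fun x => by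
        rw [Cyc79.D_clm _ hsL (Cb.sm ((h i).W _)), Cyc79.D_clm _ hsL (Cb.sm ((h i).W _))]
        simp only [curv, map_sub, map_add, map_sum, map_smul, Md.adW, Wz78.adc_apply, Wz78.opL_hsL]
        rfl)))

theorem cvS {φ : ι × ι → T.Fn} (hφ : ∀ s, T.EC n (φ s)) (h0 : ∀ s d i, ∀ x ∉ Z d i, φ s d i x = 0) :
    T.EC (N := κ.SA) n fun d i =>
      (T.F d i).res (κ.A d i) ((T.F d i).res (κ.A d i) (κ.fg φ d i)) := by
  have := h.hn
  obtain ⟨n, rfl⟩ : ∃ m, n = m + 2 := ⟨n - 2, by omega⟩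
  obtain ⟨h1, h2⟩ := h.cv φ hφ h0
  have q : ∀ᶠ d in X.l, ∀ i, (T.F d i).Cb (κ.fg φ d i) :=
    ((h.gd.and (eventually_all.2 fun s => (hφ s).q)).and T.tame).mono fun d h i =>
      Cb_sum _ fun s _ => Cb_smul (h.1.2 s i) (Cb_app (h.1.1 i).pg (Cb_clm hsL (Cb.sub (Cb.add
        (Cb.sub (Cb_D ((h.1.1 i).W _) _) (Cb_D ((h.1.1 i).W _) _))
        (Cb.sub (Cb_comp ((h.1.1 i).W _) ((h.1.1 i).W _)) (Cb_comp ((h.1.1 i).W _) ((h.1.1 i).W _))))
        (Cb_sum _ fun l _ => Cb_smul ⟨_, (h.2 i).choose_spec.c _ _ l⟩ ((h.1.1 i).W l)))))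
  have e1 := h.engA.res' (k := n) (by omega) q (.sum _ fun s _ =>
    (hφ s).el.smul h.h7 (by omega) (h.Fg (by omega) s)) h1
  exact ⟨h.engA.resQ (h.engA.resQ q), h2, h.engA.res' (k := n) (by omega) (h.engA.resQ q)
    (e1.of_le (by omega)) (h2.hk (.of_forall fun _ _ => Mp86.sm_res _ _ _))⟩

theorem cvY (hf : T.EC n f) (h0 : ∀ d i, ∀ x ∉ Z d i, f d i x = 0) (hg : T.Cd n g)
    (hg' : T.Cd n g') :
    T.EC (N := κ.SA) n fun d i => (κ.c d i).sd (T.F d i) (.cv (f d i) (g d i) (g' d i)) :=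
  h.cvS (fun s => (hf.mul h.h7 (hg s.1)).mul h.h7 (hg' s.2)) fun s d i x hx => by simp [h0 d i x hx]

theorem qY (hu : Fa (T.LtY n) u) (hv : Fa (T.LtY n) v) :
    T.EC (N := κ.SA) n fun d i => (κ.c d i).sd (T.F d i) (.q (u d i) (v d i)) :=
  h.pg.app h.h7 le_rfl ((h.sw hu).bil h.h7 le_rfl (B := fun _ => rkL _)
    (.of_le 1 fun _ => norm_rkL) (h.sw hv))

/-- the two-form `dg ∧ dg' ⊗ ξ` -/
theorem wedge (hg : T.Cd n g) (hg' : T.Cd n g') {ξ : T.Sc κ.SA} (hξ : T.EL n ξ) :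
    T.EL (N := κ.S2) n fun d i x => WithLp.toLp 2 fun s : ι × ι =>
      ((T.F d i).D s.1 (g d i) x * (T.F d i).D s.2 (g' d i) x) • ξ d i x :=
  EL.toLp fun s => ((hg s.1).mul h.h7 (hg' s.2)).el.smul h.h7 le_rfl hξ

/-- the covariant derivative of the spinor along the gradient of `g` (one level lower) -/
theorem ntΦ (hk : k + 1 ≤ n) (hg : T.Cd n g) :
    T.EL (N := κ.SV) k fun d i => nt (T.F d i) (κ.W d i) (g d i) (κ.Φ d i) :=
  .sum _ fun a _ => (hg a).el.smul h.h7 (by omega)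
    ((h.Φ.el.of_le hk).nab h.h7 (by omega) h.W a)

end OK
end CF
end Tw

end Crest.Agent.X212.Rsv69
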