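import Crest.Agent.X212.Rsv69.Bs
import Crest.Agent.X212.Rsv69.Nk

/-! Row 212, RESP (helper69): the cyclic seeds of a pair (the section `fib` follows Hd34/Fin). -/

set_option autoImplicit false
set_option linter.unusedSectionVars false
set_option maxSynthPendingDepth 3
noncomputable section
open scoped Manifold ContDiff Topology InnerProductSpace
open MeasureTheory Set Function Filter Real

namespace Crest.Agent.X212.Rsv69
open Rsp69
open An Sob92 Wz78 Dgr80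
open Cyc79 hiding tpL cf norm_adR
open Wrd81 (wd)

section gen
variable {E : Type} [NormedAddCommGroup E] [NormedSpace ℝ E] [FiniteDimensional ℝ E]
  [MeasurableSpace E] [BorelSpace E]
  {HM : Type} [TopologicalSpace HM] {I : ModelWithCorners ℝ E HM} [I.Boundaryless]
  {M : Type} [TopologicalSpace M] [ChartedSpace HM M] [IsManifold I ∞ M]
  [MeasurableSpace M] [T2Space M] [BorelSpace M] [SecondCountableTopology M]
  {ι : Type} [Fintype ι] {𝒟 : Type*} {lam : Type} [Fintype lam]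

section fib
variable {ν : Type} [Fintype ν] [DecidableEq ν] {W : Type}
  [NormedAddCommGroup W] [InnerProductSpace ℝ W] [CompleteSpace W]
  {K K' : Type} [NormedAddCommGroup K] [InnerProductSpace ℝ K] [CompleteSpace K]
  [NormedAddCommGroup K'] [InnerProductSpace ℝ K'] [CompleteSpace K']
  (F : Fr I M ι) (A : ι → M → En ν) (r : CL W (En ν))

/-- words on the fibre `Fm ν K` -/
def wK (s : M → Fm ν K) (w : List (La M)) : M → Fm ν K := wd (sl F (aA K A)) s (w.map (laV _))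

/-- `gc` on the fibre `Fm ν K` -/
def gK (s : M → Fm ν K) (w : List (La M)) (l : M → Fm ν K) : M → Fm ι W :=
  gc F (aA K A) (amp K ∘L r) s (w.map (laV _)) l

/-- `gh` on the fibre `Fm ν K` -/
def hK (b b' : M → Fm ν K) (x x' w w' : List (La M)) (ξ : M → W) (z : M) : Fm ι W :=
  gK F A r b' (w ++ x) (fun y => (amp K ∘L r) (ξ y) (wK F A b' (w' ++ x) y)) z +
    gK F A r b x' (bk F (aA K A) ((w ++ x).map (laV _)) fun y =>
      (amp K ∘L r) (ξ y) (wK F A b w' y)) z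

theorem norm_ampL : ‖amp K ∘L r‖ ≤ ‖r‖ := ContinuousLinearMap.opNorm_le_bound _ (norm_nonneg _)
  fun ξ => (ContinuousLinearMap.opNorm_le_bound _ (norm_nonneg _) (norm_amp _)).trans (r.le_opNorm ξ)

variable {F A} {R : K →L[ℝ] K'} (hR : ∀ h h', ⟪R h, R h'⟫_ℝ = ⟪h, h'⟫_ℝ) (hA : Ok F A)
  {S T : K →L[ℝ] KK F.toPre ν} {s l : M → Fm ν K} {w : List (La M)}
include hR

theorem tp_fb (a b : Fm ν K) : tp (amp K' ∘L r) (fb R a) (fb R b) = tp (amp K ∘L r) a b :=
  ext_inner_right ℝ fun ξ => by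
    simp only [inner_tp, ContinuousLinearMap.comp_apply, ← fb_amp, PiLp.inner_apply, fb_apply, hR]

include hA

theorem gK_fb (hs : FI F S s) (hw : ∀ t ∈ w, La.OK F t) : ∀ {T l}, FI F T l →
    gK F A r (fun z => fb R (s z)) w (fun z => fb R (l z)) = gK F A r s w l := by
  induction w with
  | nil => exact fun _ => rfl
  | cons t w ih =>
    intro T l hl
    have hw' : ∀ u ∈ w, La.OK F u := fun u hu => hw u (by simp [hu])
    have ht := hw t (by simp)
    have h1 := ih hw' (hl.la hA ht)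
    have g : ∀ {T l} {t : La M}, FI F T l → La.OK F t → sl F (aA K' A) (laV _ t)
        (fun z => fb R (l z)) = fun z => fb R (sl F (aA K A) (laV _ t) l z) := fun hl ht =>
      hl.wd_fb hA (w := [_]) (by simpa using ht) R
    rw [← g hl ht, ← slT_laV, ← slT_laV] at h1
    cases t with
    | mul f => exact h1
    | G =>
      have h2 := hs.wd hA hw'
      have e1 : F.res _ _ = _ := g (t := .G) hl trivial
      have e2 : F.res _ _ = _ := g (t := .G) h2 trivial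
      funext x
      refine congrArg₂ (· - ·) (congrFun h1 x) ?_
      rw [hs.wd_fb hA hw', e1, e2]
      simp only [cur, fb_nab (hl.la hA ht).sm, fb_nab (h2.la hA ht).sm, tp_fb r hR]
      rfl

theorem hK_fb {x x' w' : List (La M)} {ξ : M → W} (hs : FI F S s) (hl : FI F T l)
    (hx : ∀ t ∈ x, La.OK F t) (hx' : ∀ t ∈ x', La.OK F t) (hw : ∀ t ∈ w, La.OK F t)
    (hw' : ∀ t ∈ w', La.OK F t) (hξ : F.Cb ξ) :
    hK F A r (fun z => fb R (s z)) (fun z => fb R (l z)) x x' w w' ξ =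
      hK F A r s l x x' w w' ξ := funext fun z => by
  have a : ∀ {w}, (∀ t ∈ w, La.OK F t) → ∀ t ∈ w ++ x, La.OK F t := fun hw t ht =>
    (List.mem_append.1 ht).elim (hw t) (hx t)
  have b : ∀ t ∈ (w ++ x).reverse, La.OK F t := fun t ht => a hw t (List.mem_reverse.1 ht)
  have h1 := (hl.wd hA (a hw')).op (Cb_clm r hξ)
  have h2 := (hs.wd hA hw').op (Cb_clm r hξ)
  simp only [hK, wK, bk_laV, hl.wd_fb hA (a hw'), hs.wd_fb hA hw', ContinuousLinearMap.comp_apply,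
    ← fb_amp, h2.wd_fb hA b, gK_fb r hR hA hl (a hw) h1, gK_fb r hR hA hs hx' (h2.wd hA b)]

end fib

theorem gh_eq {r : ℕ} (F : Fr I M ι) (c : Cfg M ι lam r) (f f' : M → ℝ) (w w' : List (La M))
    (l : M → c.m.A) : gh F c f f' w w' (adl F c l) =
      hK F (c.m.adW c.W) (adR (Fin c.m.N)) (bs F (c.m.adW c.W) c.m.pg f f')
        (bs F (c.m.adW c.W) c.m.pg f' f) (xw f f') (xw f' f) w w' fun x => c.m.pg x (l x) := rfl

namespace Tw
open Rsp69.Cx
variable {X : Cx I M ι 𝒟} {T : Tw X lam} {n : ℕ} {N : 𝒟 → ℕ}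
  {w w' x x' : ∀ d i, List (La (T.S d i).M)}
  {ν : 𝒟 → Type} [∀ d, Fintype (ν d)] [∀ d, DecidableEq (ν d)]
  {A : ∀ d i, ι → (T.S d i).M → En (ν d)} {p : T.Sc fun d => En (ν d)} {f f' : T.Fn}
  {W : 𝒟 → Type} [∀ d, NormedAddCommGroup (W d)] [∀ d, InnerProductSpace ℝ (W d)]
  [∀ d, CompleteSpace (W d)] {K : 𝒟 → Type} [∀ d, NormedAddCommGroup (K d)] [∀ d, InnerProductSpace ℝ (K d)]
  [∀ d, CompleteSpace (K d)]

theorem Fa.laOK (hw : Fa (T.LaY n) w) : ∀ᶠ d in X.l, ∀ i, ∀ t ∈ w d i, La.OK (T.F d i) t := by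
  induction hw with
  | nil => simp
  | cons ht _ ih =>
    cases ht with
    | mul hf => exact (hf.q.and ih).mono fun _ h i => List.forall_mem_cons.2 ⟨h.1 i, h.2 i⟩
    | G => exact ih.mono fun _ h i => List.forall_mem_cons.2 ⟨trivial, h i⟩

theorem Fa.slkQ (hn : 7 ≤ n) (hw : Fa (T.LaY n) w) : Fa (T.SLk (V := fun d => Fm (ν d) (K d))
    (fun d i => QI (T.F d i) (p d i)) n) fun d i => (w d i).map (laV _) := hw.map fun t ht => by
  cases ht with
  | @mul f hf =>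
    have e : ∀ u, T.EP (N := fun d => Fm (ν d) (K d)) (fun d i => QI (T.F d i) (p d i)) n u →
        T.EP (N := fun d => Fm (ν d) (K d)) (fun d i => QI (T.F d i) (p d i)) n
          fun d i x => f d i x • u d i x := fun u hu =>
      ⟨(hf.q.and hu.q).mono fun _ h i => (ok_laV (t := .mul _) (h.1 i) _ (h.2 i)).1,
        hf.u.bil (B := fun d => ContinuousLinearMap.lsmul ℝ ℝ (E := Fm (ν d) (K d)))
          (.of_le 1 fun _ => ContinuousLinearMap.opNorm_lsmul_le) hu.u, hf.el.smul hn le_rfl hu.el⟩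
    exact .inl ⟨_, rfl, e, fun u hu => (e u hu).congr' fun _ _ _ => by
      simp [ContinuousLinearMap.one_def]⟩
  | G => exact .inr rfl

theorem Eng.hK (h : T.Eng (V := fun d => Fm (ν d) (K d)) (fun d i => QI (T.F d i) (p d i)) n
      fun d i => aA (K d) (A d i)) {r : ∀ d, CL (W d) (En (ν d))}
    (hr : Ub X.l fun d => ‖r d‖) {b b' : T.Sc fun d => Fm (ν d) (K d)}
    (hb : T.EP (fun d i => QI (T.F d i) (p d i)) n b)
    (hb' : T.EP (fun d i => QI (T.F d i) (p d i)) n b') (hx : Fa (T.LaY n) x) (hx' : Fa (T.LaY n) x')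
    (hw : Fa (T.LaY n) w) (hw' : Fa (T.LaY n) w') {ξ : T.Sc W} (hξ : T.EC n ξ)
    (e : ∀ d i z, p d i z * (r d (ξ d i z) * p d i z) = r d (ξ d i z) * p d i z) :
    T.EL (N := fun d => Fm ι (W d)) n fun d i =>
      hK (T.F d i) (A d i) (r d) (b d i) (b' d i) (x d i) (x' d i) (w d i) (w' d i) (ξ d i) := by
  have hr : Ub X.l fun d => ‖amp (K d) ∘L r d‖ :=
    hr.imp fun _ h => ⟨h.1, h.2.mono fun d h => (norm_ampL (r d)).trans h⟩
  have m : ∀ {u : T.Sc fun d => Fm (ν d) (K d)}, T.EP (fun d i => QI (T.F d i) (p d i)) n u →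
      T.EP (N := fun d => Fm (ν d) (K d)) (fun d i => QI (T.F d i) (p d i)) n
        fun d i z => (amp (K d) ∘L r d) (ξ d i z) (u d i z) := fun hu =>
    ⟨(hξ.q.and hu.q).mono fun d h i => (h.2 i).op (Cb_clm (r d) (h.1 i)) (e d i), hξ.u.bil hr hu.u,
      hξ.el.bil h.h7 le_rfl hr hu.el⟩
  exact (h.gc hr hb' ((hw.append hx).slkQ h.h7) (m (h.wd ((hw'.append hx).slkQ h.h7) hb'))).add
    (h.gc hr hb (hx'.slkQ h.h7) (h.bk ((hw.append hx).slkQ h.h7) (m (h.wd (hw'.slkQ h.h7) hb))))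

namespace CF.OK
variable {κ : T.CF N} {Z : ∀ d i, Set (T.S d i).M} (h : κ.OK Z n)
include h

theorem pa : T.PA n κ.A fun d i => (κ.m d i).pg :=
  ⟨h.hn, h.gd.mono fun _ h i => ⟨(h i).pp, (h i).toCO.pq⟩, h.elA, h.pg.el⟩

/-- **the cyclic seeds** -/
theorem cyc (H : T.HD fun d => Fin (N d) × Fin (N d)) (s : T.SepT n f f') (s' : T.SepT n f' f)
    (hw : Fa (T.LaY n) w) (hw' : Fa (T.LaY n) w') :
    κ.SedS n fun d i => Cy.sed ⟨f d i, f' d i, w d i, w' d i⟩ (T.F d i) := by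
  obtain ⟨sp, hb⟩ := h.pa.bsE H s
  obtain ⟨-, hb'⟩ := h.pa.bsE H s'
  have hE := h.pa.eng H
  have x1 : Fa (T.LaY n) fun d i => xw (f d i) (f' d i) :=
    .cons (.mul s.1) (.cons .G (.cons (.mul s'.1) .nil))
  have x2 : Fa (T.LaY n) fun d i => xw (f' d i) (f d i) :=
    .cons (.mul s'.1) (.cons .G (.cons (.mul s.1) .nil))
  have a := hE.wd ((hw.append x1).slkQ h.h7) hb'
  have b := hE.wd ((hw'.append x1).slkQ h.h7) hb'
  have hr : Ub X.l fun d => ‖tpL (amp (H.H d) ∘L adR (Fin (N d)))‖ :=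
    .of_le 2 fun _ => (norm_tpL _).trans ((norm_ampL _).trans norm_adR)
  have k := (((h.pa.pp.and sp).and H.iso).and hw.laOK).and hw'.laOK
  refine ⟨EP.congr (h.pg.app (N := κ.SA) (N' := κ.SA) h.h7 le_rfl
    ⟨(a.q.and b.q).mono fun _ h i => Cb_bil _ (h.1 i).cb (h.2 i).cb, a.u.bil hr b.u,
      a.el.bil h.h7 le_rfl hr b.el⟩) (k.mono fun d k i => funext fun z => ?_), fun l hl => ?_,
    fun _ _ => EL.zero⟩
  · have o := (k.1.1.1.1 i).1
    have f2 := o.fi (k.1.1.1.2 i).symm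
    have ok := fun {w} => Cy.OK.W (d := ⟨f d i, f' d i, _, _⟩) (w := w) ⟨k.1.1.1.2 i, k.1.2 i, k.2 i⟩
    rw [f2.wd_fb o.toOk (ok (k.1.2 i)), f2.wd_fb o.toOk (ok (k.2 i))]
    exact congrArg _ (tp_fb _ (k.1.1.2 i) _ _)
  · have hξ := h.pg.app (N := κ.SA) (N' := κ.SA) h.h7 le_rfl hl
    have e : ∀ {w w'}, Fa (T.LaY n) w → Fa (T.LaY n) w' → T.EL (N := κ.S1) n fun d i =>
        gh (T.F d i) (κ.c d i) (f d i) (f' d i) (w d i) (w' d i) (adl _ _ (l d i)) := fun hw hw' =>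
      (hE.hK (r := fun d => adR (Fin (N d))) (.of_le 2 fun _ => norm_adR) hb hb' x1 x2 hw hw' hξ
        fun d i z => pg_adR z _).congr
        (((((h.pa.pp.and sp).and H.iso).and hw.laOK).and (hw'.laOK.and hξ.q)).mono fun d k i =>
          (hK_fb (adR _) (k.1.1.2 i) (k.1.1.1.1 i).1.toOk ((k.1.1.1.1 i).1.fi (k.1.1.1.2 i))
            ((k.1.1.1.1 i).1.fi (k.1.1.1.2 i).symm) (k.1.1.1.2 i).ok (k.1.1.1.2 i).symm.ok
            (k.1.2 i) (k.2.1 i) (k.2.2 i)).trans (gh_eq (T.F d i) (κ.c d i) _ _ _ _ (l d i)).symm)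
    have e' := (e hw' hw).sub (e hw hw')
    exact e'

end CF.OK
end Tw
end gen

open Nd18 Nka63

variable {E3 : Type} [NormedAddCommGroup E3] [NormedSpace ℝ E3] [FiniteDimensional ℝ E3]
  [MeasurableSpace E3] [BorelSpace E3]
  {H3 : Type} [TopologicalSpace H3] {I3 : ModelWithCorners ℝ E3 H3} [I3.Boundaryless]
  {Y : Type} [TopologicalSpace Y] [ChartedSpace H3 Y] [IsManifold I3 ∞ Y] [T2Space Y]
  [MeasurableSpace Y] [BorelSpace Y] [SecondCountableTopology Y] [CompactSpace Y]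
  {κ : Type} [Fintype κ] {lam : Type} [Fintype lam] {D : YD I3 Y κ lam} {𝒟 : Type*}

theorem dv_ex2 {S : Mf (Option κ) lam} (K : Nk D S.B S.G) {f : Y → ℝ} (hf : Sm I3 f)
    (hv : D.Z.IsVol) (hv' : S.G.F.IsVol) {C : ℕ → ℝ} (ht : D.Z.Tame C) {a : Option κ} {x : S.M}
    (hx : S.G.F.D a (ex2 K f) x ≠ 0) : |S.G.F.dv a x| ≤ |C 0| := by
  obtain ⟨A, hA⟩ := bd_dtf
  obtain ⟨A', hA'⟩ := Cht98.Cb_fst D.F.toPre (Cb_of_compact (F := D.F.toPre) hf)
  have h1 := (hA K.p K.q).cyl D.F.toPre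
  have h2 : x ∈ K.ψ.target := by_contra fun e => hx (by
    rw [ex2, D_push K one_half_pos (u := fun z => deriv (tf K.p K.q) z.2 • f z.1)
      (h1.1.smul hA'.1) fun z hz => by
      rw [dtf_zero K.len hz, zero_smul], push_of_notMem K _ e])
  rw [← K.ψ.right_inv h2, ← (Pj41.fRel_of_iso K.iso).dv (K.ψ.map_target h2) hv hv']
  exact ((ht.dv a).2 0 [] le_rfl _).trans (le_abs_self _)

namespace NP
open Rsp69.Cx Rsv69.Tw
variable (P : NP D 𝒟) {n₀ : 𝒟 → ℕ} {n : ℕ}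

theorem sepT {f f' : Y → ℝ} (h : Sep D.F.toPre f f') :
    P.tw.SepT n (fun d i => (P.K d i).ext f) fun d i => (P.K d i).ext f' := by
  obtain ⟨h1, h2, φ, h3, h4, h5⟩ := h
  have h6 : D.F.Cb fun y => (3 : ℝ) • φ y := Cb_smul (Cb_const _) h3
  obtain ⟨C, hC⟩ := cbs_ex2 D h6.choose_spec.1
  obtain ⟨C', hC'⟩ := Cht98.Cb_fst D.F.toPre h6
  have e := fun d i x (hx : (P.K d i).χ x ≠ 0) => ex2_eq (P.K d i) (fun y => (3 : ℝ) • φ y)
    (mem_O_of_χ _ hx)
  refine ⟨P.ext h1.choose_spec.1, fun d i => ex2 (P.K d i) fun y => (3 : ℝ) • φ y,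
    fun _ z => (3 : ℝ) • φ z.1, fun k => max (C k) (C' k), ⟨P.ext h2.choose_spec.1,
      .of_forall fun d => ⟨⟨hC'.1, fun k => CB_mono (hC'.2 k) (le_max_right _ _)⟩, fun i =>
        ⟨⟨(hC (P.K d i)).1, fun k => CB_mono ((hC (P.K d i)).2 k) (le_max_left _ _)⟩,
          fun x hx => ?_⟩⟩, (P.dp 2).mono fun d z h i => ?_, P.tame.mono fun d h i a x hx => ?_⟩,
    .of_forall fun d i x hx => ?_⟩
  · rw [e d i x (left_ne_zero_of_smul hx), smul_eq_mul]
    linarith [h5 _ (right_ne_zero_of_smul hx)]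
  · rw [e d i _ (by
      rw [(P.K d i).χ_one (x := (P.K d i).ψ z) (by rw [Nk.dp, mem_preimage, (h i).2.2.1]; exact (h i).2.1)]
      exact one_ne_zero), (P.K d i).ψ.left_inv (h i).1]
  · exact dv_ex2 (P.K d i) h6.choose_spec.1 P.hD.G.vol (h i).1 P.tz hx
  · beta_reduce
    rw [e d i x (left_ne_zero_of_smul hx), smul_eq_mul]
    linarith [h4 _ (right_ne_zero_of_smul hx)]

theorem hd (ν : 𝒟 → Type) [∀ d, Fintype (ν d)] : Nonempty (P.tw.HD ν) :=
  exists_hd ν (χ := fun d i => (P.K d i).χ) (.of_forall fun d i => ⟨(P.K d i).cb_χ,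
    Adm.mono (K := (P.K d i).dp 1) ⟨(P.K d i).dp_sub one_pos, by
      convert (isClosed_Dp (p := (P.K d i).p) (q := (P.K d i).q) (d := 1)).preimage
        (continuous_snd (X := Y)) using 1
      ext z
      refine ⟨fun h => show z.2 ∈ Dp _ _ 1 from (P.K d i).tm_ψ z h.1 ▸ h.2, fun h => ?_⟩
      have := (P.K d i).mem_src.2 (Dp_sub one_pos h)
      exact ⟨this, show _ ∈ Dp _ _ 1 from ((P.K d i).tm_ψ z this).symm ▸ h⟩⟩
      (isClosed_tsupport _) (tsupport_χ _)⟩)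
    ((P.dp 2).mono fun d z h i => (P.K d i).χ_one
      (by rw [Nk.dp, mem_preimage, (h i).2.2.1]; exact (h i).2.1))

variable {P}

/-- **the cyclic seeds of a pair of necks** -/
theorem nc {c : P.tw.CF n₀} {Z : ∀ d i, Set (P.S d i).M} (h : c.OK Z n) : NC c n := fun _ he =>
  let ⟨H⟩ := P.hd fun d => Fin (n₀ d) × Fin (n₀ d)
  h.cyc H (P.sepT he.sep) (P.sepT he.sep.symm) (P.las fun t ht => laOK_of (he.w t ht))
    (P.las fun t ht => laOK_of (he.w' t ht))

end NP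

end Crest.Agent.X212.Rsv69
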