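import Crest.Agent.X212.Rsv69.Tw
import Crest.Agent.X212.Rsp69.Hd

/-! Row 212, RESP (helper69): a common Hilbert space for the `L²` spaces of a pair of manifolds. -/

set_option autoImplicit false
set_option linter.unusedSectionVars false
noncomputable section
open scoped Manifold ContDiff Topology InnerProductSpace
open MeasureTheory Set Function Filter Real

namespace Crest.Agent.X212.Rsv69
open Rsp69
open An Sob92 Wz78 Dgr80
open Cyc79 (KK ct)
open Map77 (P2 pr2)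
open ContinuousLinearMap (adjoint)

theorem norm_of_dense {ν K : Type} [Fintype ν] [DecidableEq ν] [NormedAddCommGroup K]
    [InnerProductSpace ℝ K] {S : Set K} (hS : Dense S) {v : Fm ν K} {c : ℝ} {p : En ν}
    (h1 : ∀ v w, ⟪p v, w⟫_ℝ = ⟪v, p w⟫_ℝ) (h2 : p * p = p)
    (h3 : ∑ i, ‖p (EuclideanSpace.single i 1)‖ ^ 2 ≤ 3)
    (h : ∀ k ∈ S, ‖k‖ ≤ 1 → ‖ct k v‖ ≤ c) : ‖Cyc79.amp K p v‖ ≤ 4 * c := by
  have h4 : ∀ k, ‖k‖ < 1 → ‖ct k v‖ ≤ c := fun k hk =>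
    closure_minimal (t := {k | ‖ct k v‖ ≤ c}) (fun k hk => h k hk.2 (mem_ball_zero_iff.1 hk.1).le)
      (isClosed_le (Cyc79.cont_ct v).norm continuous_const)
      (hS.open_subset_closure_inter Metric.isOpen_ball (mem_ball_zero_iff.2 hk))
  have c0 : 0 ≤ c := (norm_nonneg _).trans (h4 0 (by simp))
  have h5 : ∀ k, ‖ct k v‖ ≤ 2 * c * ‖k‖ := fun k => by
    rcases eq_or_ne k 0 with rfl | e
    · exact le_of_eq (by rw [show ct (0 : K) v = 0 by ext; simp]; simp)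
    have p := norm_pos_iff.2 e
    have := h4 ((2 * ‖k‖)⁻¹ • k) (by
      rw [norm_smul, norm_inv, Real.norm_of_nonneg (by positivity), inv_mul_lt_one₀ (by positivity)]
      linarith)
    rw [show ct _ v = (2 * ‖k‖)⁻¹ • ct k v by ext; simp [inner_smul_left, mul_assoc], norm_smul,
      norm_inv, Real.norm_of_nonneg (by positivity), inv_mul_le_iff₀ (by positivity)] at this
    linarith
  refine le_of_sq_le_sq ((Cyc79.norm_of_ct h1 (c := (2 * c) ^ 2) (fun k => ?_) (fun k => ?_)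
    (sq_nonneg _)).trans (by nlinarith [mul_le_mul_of_nonneg_right h3 (sq_nonneg (2 * c))]))
    (by positivity)
  · rw [Cyc79.ct_amp, ← mul_apply_eq_comp, h2]
  · rw [Cyc79.ct_amp, ← mul_pow]
    exact pow_le_pow_left₀ (norm_nonneg _) ((Mp86.proj_le h1 h2 _).2.2.trans (h5 k)) 2

variable {E : Type} [NormedAddCommGroup E] [NormedSpace ℝ E] [FiniteDimensional ℝ E]
  [MeasurableSpace E] [BorelSpace E]
  {HM : Type} [TopologicalSpace HM] {I : ModelWithCorners ℝ E HM} [I.Boundaryless]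
  {M : Type} [TopologicalSpace M] [ChartedSpace HM M] [IsManifold I ∞ M]
  [MeasurableSpace M] [T2Space M] [BorelSpace M] [SecondCountableTopology M]
  {ι : Type} [Fintype ι] {𝒟 : Type*} {lam : Type} [Fintype lam]

namespace Tw
open Rsp69.Cx
variable {X : Cx I M ι 𝒟} (T : Tw X lam) {𝒟' : Type*} {k n : ℕ}
  {V : 𝒟 → Type} [∀ d, NormedAddCommGroup (V d)] [∀ d, InnerProductSpace ℝ (V d)]
  {N : 𝒟 → Type} [∀ d, NormedAddCommGroup (N d)] [∀ d, NormedSpace ℝ (N d)]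

/-- reindexing -/
@[reducible] def cm (σ : 𝒟' → 𝒟) : Tw (X.cm σ) lam where
  S e := T.S (σ e)
  ψ e := T.ψ (σ e)
  κ := T.κ
  ρ e := T.ρ (σ e)
  L := T.L
  rt := ⟨T.rt.κ0, tendsto_comap.eventually T.rt.wg,
    ⟨T.rt.lw.1, tendsto_comap.eventually T.rt.lw.2⟩, tendsto_comap.eventually T.rt.off⟩
  iso := tendsto_comap.eventually T.iso
  src := T.src.cm σ

variable {T}

/-- global `L²` bounds give bounds on the band -/
theorem hk0 {g : T.Sc N} {i : Bool} {K : ℝ} (h : ∀ᶠ d in X.l, Sm (T.S d i).I (g d i) ∧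
    LB (T.F d i).μ (fun y => ‖g d i y‖ ^ 2) K) : X.Hk 1 0 fun d x => g d i (T.ψ d i x) := by
  obtain ⟨L, hL, h1⟩ := T.rel.win
  refine ⟨L, hL, fun R hR => ⟨|K|, abs_nonneg _, ?_⟩⟩
  filter_upwards [h1 R, ev_fst h, ev_fst T.iso, ev_fst X.sτ, (bk_η' R 0).sa,
    W_vol (R := R) (by linarith)] with z h1 h hi hτ hη hv
  have s : Sm I fun x => X.η R z x • g z.1 i (T.ψ z.1 i x) := sm_cut (fun x => hη x trivial)
    fun x hx => ((h1 x (ts_η hτ.1 hx)).2 i).1.sm ((h1 x (ts_η hτ.1 hx)).2 i).2.1 (h.1 _)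
  refine ⟨zero_le_one, s, .intro hv.1 fun x hx => by rw [η_zero hx, zero_smul], ?_⟩
  have l : LB (X.F z.1).μ (pull (T.ψ z.1 i) fun y => ‖g z.1 i y‖ ^ 2) |K| :=
    ⟨(Nka63.integrable_pull_iff (hi.2 i).1).2 h.2.1.integrableOn, by
      rw [Nka63.integral_pull' (hi.2 i).1]
      exact (setIntegral_le_integral h.2.1 (.of_forall fun _ => sq_nonneg _)).trans
        (h.2.2.trans (le_abs_self K))⟩
  refine (l.mono (g' := fun x => ‖X.η R z x • g z.1 i (T.ψ z.1 i x)‖ ^ 2)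
    (s.continuous.norm.pow 2).aestronglyMeasurable (fun _ => sq_nonneg _) fun x => ?_).2.trans
    (by simp)
  by_cases hx : x ∈ X.W R z
  · rw [pull_of_mem ((h1 x hx).2 i).2.1, norm_smul, mul_pow, Real.norm_eq_abs, sq_abs]
    exact mul_le_of_le_one_left (sq_nonneg _) (pow_le_one₀ wc_mem.1 wc_mem.2)
  · rw [η_zero hx, zero_smul, norm_zero, sq, mul_zero]
    exact indicator_nonneg (fun _ _ => sq_nonneg _) _

/-- **interior regularity** for pairs of local solutions -/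
theorem lrT (hn : 7 ≤ n) (hk : k ≤ n) {A : ∀ d i, ι → (T.S d i).M → V d →L[ℝ] V d}
    (hA : ∀ a, T.EL (n + 1) fun d i => A d i a) (hs : ∀ᶠ d in X.l, ∀ i a x, Skew (A d i a x))
    {θ : ℕ → 𝒟 → M → ℝ} (hθ : ∀ j k, Bk (N := fun _ => ℝ) (pre X.F) X.l (un 𝒟 M) 1 k (θ j))
    (h1 : ∀ j, ∀ᶠ d in X.l, ∀ x ∈ tsupport (θ (j + 1) d), θ j d =ᶠ[𝓝 x] fun _ => 1) {R : T.Sc V}
    (he : X.Ev fun d x => x ∈ tsupport (θ 1 d) → ∀ i, R d i (T.ψ d i x) + lap (T.S d i).I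
      (T.F d i).e (T.F d i).dv (A d i) (R d i) (T.ψ d i x) = 0)
    (h0 : X.Pr T.ρ 0 fun d i x => θ 0 d x • R d i (T.ψ d i x)) :
    X.Pr T.ρ (k + 2) fun d i x => θ (k + 2 + (k + 3) + 1) d x • R d i (T.ψ d i x) := by
  have sub : ∀ j, ∀ᶠ d in X.l, tsupport (θ (j + 1) d) ⊆ tsupport (θ 1 d) := fun j => by
    induction j with
    | zero => exact .of_forall fun _ => subset_rfl
    | succ j ih =>
      filter_upwards [ih, h1 (j + 1)] with d ih h x hx
      exact ih (subset_tsupport _ (by simp [(h x hx).self_of_nhds]))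
  refine (Pr.lr (A := fun d i a x => A d i a (T.ψ d i x)) (θ := fun j => θ (j + 1)) T.lw hn hk hA
    (.of_ev (hs.mono fun _ h _ i a => h i a _)) (fun j => hθ _) (fun j => h1 _)
    (((T.rel.and he).and (.of_ev (h1 0))).mono fun d x h hx i => ?_) h0).congr
    (.of_ev (((sub (k + 2 + (k + 3))).and (h1 0)).mono fun d h x i => ?_))
  · have e := h.2 hx
    rw [(h.1.1.2 i).1.lap (h.1.1.2 i).2.1 h.1.1.1 (h.1.1.2 i).2.2 (u' := R d i)
      (fun _ => .of_forall fun _ => rfl) (e.mono fun y hy => by simp [hy]), e.self_of_nhds, one_smul]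
    exact h.1.2 hx i
  · by_cases e : θ (k + 2 + (k + 3) + 1) d x = 0
    · simp [e]
    · rw [(h.2 x (h.1 (subset_tsupport _ e))).self_of_nhds, one_smul]

variable (T) (ν : 𝒟 → Type) [∀ d, Fintype (ν d)]

/-- a common Hilbert space -/
structure HD where
  H : 𝒟 → Type
  [i1 : ∀ d, NormedAddCommGroup (H d)]
  [i2 : ∀ d, InnerProductSpace ℝ (H d)]
  [i3 : ∀ d, CompleteSpace (H d)]
  j : ∀ d i, KK (T.F d i).toPre (ν d) →L[ℝ] H d
  iso : ∀ᶠ d in X.l, ∀ i a b, ⟪j d i a, j d i b⟫_ℝ = ⟪a, b⟫_ℝ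
  dn : ∃ L, 0 ≤ L ∧ ∀ᶠ d in X.l, Dense {h | ∃ u : ∀ i, Sec (T.S d i).I (triv (T.S d i).M (Eu (ν d))),
    (∀ i, adjoint (j d i) h = (T.F d i).toH 0 _ (u i)) ∧
      ∀ x ∈ X.bd L d, (u true).1 (T.ψ d true x) = (u false).1 (T.ψ d false x)}

attribute [instance] HD.i1 HD.i2 HD.i3

variable {T}

theorem exists_hd {χ : T.Fn}
    (h : ∀ᶠ d in X.l, ∀ i, (T.F d i).Cb (χ d i) ∧ Sob92.Adm (T.ψ d i) (tsupport (χ d i)))
    (h1 : X.Ev fun d x => ∀ i, χ d i (T.ψ d i x) = 1) : Nonempty (T.HD ν) := by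
  classical
  choose P Q hP using fun d i => exists_ps (Eu (ν d)) (X.F d).toPre (T.F d i).toPre (T.ψ d i) (χ d i)
  have hP' := (T.iso.and h).mono fun d h i => hP d i ⟨(h.1.2 i).1, h.2 i⟩
  let K := fun d => PiLp 2 fun i => KK (T.F d i).toPre (ν d)
  let s := fun d i => (PiLp.continuousLinearEquiv 2 ℝ fun i =>
    KK (T.F d i).toPre (ν d)).symm.toContinuousLinearMap ∘L ContinuousLinearMap.single ℝ _ i
  have e : ∀ d i a (v : P2 (KK (X.F d).toPre (ν d)) (K d)), ⟪pr2 (P d i) (s d i ∘L Q d i) a, v⟫_ℝ =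
      ⟪P d i a, v.fst⟫_ℝ + ⟪Q d i a, v.snd i⟫_ℝ := fun d i a v => by
    rw [Map77.inner2, Map77.f2_pr2, Map77.s2_pr2, PiLp.inner_apply, Finset.sum_eq_single i
      (fun j _ hj => by simp [s, Pi.single_eq_of_ne hj]) (by simp)]
    simp [s]; rfl
  obtain ⟨L, hL, h2⟩ := h1.and T.src
  refine ⟨⟨fun d => P2 (KK (X.F d).toPre (ν d)) (K d), fun d i => pr2 (P d i) (s d i ∘L Q d i),
    hP'.mono fun d h i a b => ?_, L, hL, (hP'.and h2).mono fun d h => ?_⟩⟩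
  · rw [e, ← (h i).1 a b]
    congr 2 <;> simp [s, Map77.pr2_apply, Map77.i1, Map77.i2]
  · have d1 : DenseRange fun z : KK (X.F d).toPre (ν d) × ∀ i, KK (T.F d i).toPre (ν d) =>
        (WithLp.toLp 2 (z.1, WithLp.toLp 2 z.2) : P2 _ (K d)) :=
      Surjective.denseRange fun v => ⟨(v.fst, v.snd.ofLp), rfl⟩
    refine (d1.comp (((X.F d).dense_toH 0 _).prodMap (.piMap fun i => (T.F d i).dense_toH 0 _))
      (by fun_prop)).mono ?_
    rintro _ ⟨⟨g, g'⟩, rfl⟩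
    choose u u1 u2 using fun i => (h.1 i).2 g (g' i)
    exact ⟨u, fun i => ext_inner_left ℝ fun k => by
      rw [ContinuousLinearMap.adjoint_inner_right, e, ← u1]; rfl, fun x hx =>
      (u2 _ x ((h.2 x hx).2 _) ((h.2 x hx).1 _)).trans (u2 _ x ((h.2 x hx).2 _) ((h.2 x hx).1 _)).symm⟩

end Tw

end Crest.Agent.X212.Rsv69
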