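import Crest.Agent.X212.Rsv69.Apr

/-! Row 212, RESP (helper69): the hypotheses of the engine from a priori bounds. -/

set_option autoImplicit false
set_option linter.unusedSectionVars false
noncomputable section
open scoped Manifold ContDiff Topology InnerProductSpace
open MeasureTheory Set Function Filter Real

namespace Crest.Agent.X212.Rsv69
open Rsp69
open An Sob92 Wz78 Dgr80
open Mp86 (Wts)
open Pj41 (stab Emb cjL cjM)
open Eqv71 (cj)

open Nd18 Nka63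

variable {E3 : Type} [NormedAddCommGroup E3] [NormedSpace ℝ E3] [FiniteDimensional ℝ E3]
  [MeasurableSpace E3] [BorelSpace E3]
  {H3 : Type} [TopologicalSpace H3] {I3 : ModelWithCorners ℝ E3 H3} [I3.Boundaryless]
  {Y : Type} [TopologicalSpace Y] [ChartedSpace H3 Y] [IsManifold I3 ∞ Y] [T2Space Y]
  [MeasurableSpace Y] [BorelSpace Y] [SecondCountableTopology Y] [CompactSpace Y]
  {κ : Type} [Fintype κ] {lam : Type} [Fintype lam] {D : YD I3 Y κ lam} {𝒟 : Type*}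

namespace NP
open Rsp69.Cx Rsv69.Tw
variable {P : NP D 𝒟} {n₀ : 𝒟 → ℕ} {j : ℕ} (c : P.tw.CF n₀) {N : ND Y lam} {i : Bool} {δ : ℝ}

variable {c} (gd : ∀ᶠ d in P.l, ∀ i, Gd (P.S d i).B (P.S d i).G (c.c d i))
include gd

theorem ecρ (ρ : ∀ a, P.tw.EL (N := c.SE) j fun d i => c.ρ d i a) (a : Option κ) :
    P.tw.EC (N := c.SE) j fun d i => c.ρ d i a := ⟨gd.mono fun _ h i => (h i).ρ a,
  ⟨1, zero_le_one, gd.mono fun _ h i => norm_rho (h i).hB (h i).ok a⟩, ρ a⟩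

theorem ecj (h : P.tw.EL j c.j) : P.tw.EC j c.j := by
  have h1 : ∀ᶠ d in P.l, ∀ i, (P.tw.F d i).Cb (c.j d i) := gd.mono fun d h i => (h i).j
  have h2 : ∀ᶠ d in P.l, ∀ i y, ‖c.j d i y‖ ≤ 1 := gd.mono fun d h i y =>
    have e := norm_j1 (m := c.m d i) (h i).hB (h i).ok y; e
  exact ⟨h1, ⟨1, zero_le_one, h2⟩, h⟩

theorem ecpg (pg : P.tw.EL (N := fun d => En (Fin (n₀ d) × Fin (n₀ d))) j
    fun d i => (c.m d i).pg) :
    P.tw.EC (N := fun d => En (Fin (n₀ d) × Fin (n₀ d))) j fun d i => (c.m d i).pg :=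
  ⟨gd.mono fun _ h i => (h i).pg, ⟨1, zero_le_one, .of_forall fun d i =>
    norm_pg1 (m := c.m d i)⟩, pg⟩

omit gd in
theorem wk_of (ew : ∀ i, EwS c δ i) : P.WK δ (ed c) := by
  choose b₀ ew using ew
  exact ⟨max (b₀ true) (b₀ false), (eventually_all.2 ew).mono fun d h i => ⟨(h i).wi, fun t =>
    ((h i).bd t).trans (by cases i <;> simp), (h i).z⟩⟩

theorem ok_of (hj : 8 ≤ j)
    (W : ∀ a, P.tw.EL (N := c.SA) j fun d i x => hsL (c.W d i a x)) (Φ : P.tw.EL j c.Φ)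
    (Φu : P.tw.U c.Φ) (ρ : ∀ a, P.tw.EL (N := c.SE) j fun d i => c.ρ d i a)
    (hj' : P.tw.EL j c.j) (pg : P.tw.EL (N := fun d => En (Fin (n₀ d) × Fin (n₀ d))) j
      fun d i => (c.m d i).pg) (cv : ∀ i, CvS c i) : c.OK (fun d i => (P.K d i).dp 1) j where
  hn := hj
  gd := gd
  J := ⟨1, zero_le_one, gd.mono fun _ h => norm_J (h true).ok⟩
  Wh := W
  Φ := ⟨gd.mono fun _ h i => (h i).Φ, Φu, Φ⟩
  ρ := ecρ gd ρ
  j := ecj gd hj'
  pg := ecpg gd pg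
  cv := cv_of gd cv

/-- **the hypotheses of the engine** -/
theorem nh_of (hj : 8 ≤ j) (nd : N.OK D) (hγ : P.γ ≤ 2 * N.δ)
    (W : ∀ a, P.tw.EL (N := c.SA) j fun d i x => hsL (c.W d i a x)) (Φ : P.tw.EL j c.Φ)
    (Φu : P.tw.U c.Φ) (p : P.tw.EL j c.p) (ρ : ∀ a, P.tw.EL (N := c.SE) j fun d i => c.ρ d i a)
    (hj' : P.tw.EL j c.j) (pg : P.tw.EL (N := fun d => En (Fin (n₀ d) × Fin (n₀ d))) j
      fun d i => (c.m d i).pg) (cv : ∀ i, CvS c i) (ew : ∀ i, EwS c N.δ i) : NH c N j :=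
  ⟨ok_of gd hj W Φ Φu ρ hj' pg cv, nd, hγ, p, wk_of ew⟩

end NP

end Crest.Agent.X212.Rsv69
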