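import Crest.Agent.X212.Rsv69.Cyc
import Crest.Agent.X212.Rsv69.Nh
import Crest.Agent.X212.Dec35.Fam
import Crest.Agent.X212.Cyf70.Kp

/-! Row 212, RESP (helper69): exponentially decaying memory of the neck terms on the cylinder. -/

set_option autoImplicit false
set_option linter.unusedSectionVars false
noncomputable section
open scoped Manifold ContDiff Topology InnerProductSpace
open MeasureTheory Set Function Filter Real

namespace Crest.Agent.X212.Rsv69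
open Rsp69
open An Sob92 Wz78 Dgr80 Nd18 Nka63
open Dec35 (Bs Cv Tg cf Cz Vb te mbd P1U)
open Map77 (i1 i2 fa fp pj oa)
open Cyf70 (IC)

section gen
variable {E : Type} [NormedAddCommGroup E] [NormedSpace ℝ E] [FiniteDimensional ℝ E]
  [MeasurableSpace E] [BorelSpace E]
  {HM : Type} [TopologicalSpace HM] {I : ModelWithCorners ℝ E HM} [I.Boundaryless]
  {M : Type} [TopologicalSpace M] [ChartedSpace HM M] [IsManifold I ∞ M]
  [MeasurableSpace M] [T2Space M] [BorelSpace M] [SecondCountableTopology M]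
  {ι : Type} [Fintype ι] {𝒟 : Type*} {lam : Type} [Fintype lam]
  {B : Base M ι lam} {G : Geo I M ι lam} {r : ℕ} {c : Cfg M ι lam r}

theorem cb_pg (h : Bs B G c) : G.F.Cb c.m.pg := h.dat.pg h.hB (Std94.pmx h.adm.ok)

/-- the Dirac part of a perturbation -/
def oD {n : ℕ} (τ : Pt M ι lam r n) (c : Cfg M ι lam r) : M → c.m.V := τ.D c

/-- the curvature part of a perturbation -/
def oC {n : ℕ} (τ : Pt M ι lam r n) (c : Cfg M ι lam r) : M → Fm (ι × ι) c.m.A := τ.C c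

theorem gd_cf (h : Bs B G c) {u : M → Cv c} (hu : G.F.Cb u) (ht : Tg B c u) : Gd B G (cf c u) :=
  have k := Dec35.cf_adm h.adm (Cb.sm hu) ht
  ⟨⟨h.hB, h.hG, k.ok, k.conn, h.tame, fun a => Cb_add (h.cW a) (Cb_clm (oa a) hu),
    have e := cb_pg h; e⟩, k, Cb_add h.cΦ (Cb_clm fp hu), h.dat.p, h.dat.ρ, h.dat.j⟩

theorem zb_cf (h : Bs B G c) {l : Filter 𝒟} {k : ℕ} {a : 𝒟 → M → Cv c} {C : ℝ}
    (ha : ∀ᶠ d in l, G.F.Cb (a d) ∧ Tg B c (a d) ∧ G.F.CB k (a d) C) :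
    ZB B G l k fun d => cf c (a d) :=
  have b : Bk (N := fun _ => Cv c) (fun _ => G.F.toPre) l (un 𝒟 M) 1 k a :=
    .of_CB (ha.mono fun _ h => ⟨Cb.sm h.1, h.2.2⟩)
  have b1 := fun e => ((Bk.of_Cb (h.cW e)).add (b.clm (L := fun _ => oa e) (.const _))).clm
    (L := fun _ => hsL) (.const _)
  have b2 := (Bk.of_Cb h.cΦ).add (b.clm (L := fun _ => fp) (.const _))
  ⟨ha.mono fun _ k => gd_cf h k.1 k.2.1, b1, b2, .of_Cb h.dat.p, fun e => .of_Cb (h.dat.ρ e),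
    .of_Cb h.dat.j, .of_Cb (cb_pg h)⟩

end gen

variable {E3 : Type} [NormedAddCommGroup E3] [NormedSpace ℝ E3] [FiniteDimensional ℝ E3]
  [MeasurableSpace E3] [BorelSpace E3]
  {H3 : Type} [TopologicalSpace H3] {I3 : ModelWithCorners ℝ E3 H3} [I3.Boundaryless]
  {Y : Type} [TopologicalSpace Y] [ChartedSpace H3 Y] [IsManifold I3 ∞ Y] [T2Space Y]
  [MeasurableSpace Y] [BorelSpace Y] [SecondCountableTopology Y] [CompactSpace Y]
  {κ : Type} [Fintype κ] {lam : Type} [Fintype lam] {D : YD I3 Y κ lam} {β : YC Y κ lam}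
  {N : ND Y lam}

theorem pg_eq {Z Z' ι lam : Type} [Fintype ι] [Fintype lam] {n : ℕ} {J : En (Fin n)}
    {p : Z → En (Fin n)} {ρ : ι → Z → En (Fin n)} {j : Z → CL (Eu lam) (En (Fin n))}
    {p' : Z' → En (Fin n)} {ρ' : ι → Z' → En (Fin n)} {j' : Z' → CL (Eu lam) (En (Fin n))}
    {x : Z} {y : Z'} (hp : p x = p' y) (hρ : ∀ a, ρ a x = ρ' a y) (hj : j x = j' y) :
    (Md.mk n J p ρ j).pg x = (Md.mk n J p' ρ' j').pg y :=
  let f : En (Fin n) × (ι → En (Fin n)) × CL (Eu lam) (En (Fin n)) → En (Fin n × Fin n) := fun t =>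
    Md.pg (⟨n, J, fun _ => t.1, fun a _ => t.2.1 a, fun _ => t.2.2⟩ : Md Unit ι lam) ()
  have e : f (p x, fun a => ρ a x, j x) = f (p' y, fun a => ρ' a y, j' y) :=
    congrArg f (Prod.ext hp (Prod.ext (funext hρ) hj))
  e

section
variable {𝒟 : Type*} {P : NP D 𝒟} {n₀ : 𝒟 → ℕ} {c : P.tw.CF n₀} {k : ℕ} {r : 𝒟 → ℕ}
  {p : ∀ d, Y × ℝ → En (Fin (n₀ d))} {ρ : ∀ d, Option κ → Y × ℝ → En (Fin (n₀ d))}
  {j : ∀ d, Y × ℝ → CL (Eu lam) (En (Fin (n₀ d)))} {W : ∀ d, Option κ → Y × ℝ → En (Fin (n₀ d))}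
  {Φ : ∀ d, Y × ℝ → Eu (Fin (n₀ d))} {z : ∀ d, EuclideanSpace ℂ (Fin (r d))}
  (h : ZB D.B D.G P.l k fun d =>
    (⟨⟨n₀ d, c.J d, p d, ρ d, j d⟩, W d, Φ d, z d⟩ : Cfg (Y × ℝ) (Option κ) lam (r d)))
include h

theorem ZB.elm (e : P.cx.Ev fun d x => ∀ i, p d x = c.p d i (P.tw.ψ d i x) ∧
      (∀ a, ρ d a x = c.ρ d i a (P.tw.ψ d i x)) ∧ j d x = c.j d i (P.tw.ψ d i x)) :
    P.tw.EL k c.p ∧ (∀ a, P.tw.EL (N := c.SE) k fun d i => c.ρ d i a) ∧ P.tw.EL k c.j ∧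
      P.tw.EL (N := fun d => En (Fin (n₀ d) × Fin (n₀ d))) k fun d i => (c.m d i).pg := by
  have h1 : Bk (fun _ => D.Z.toPre) P.l (un 𝒟 _) 1 k p := h.p
  have h2 : ∀ a, Bk (fun _ => D.Z.toPre) P.l (un 𝒟 _) 1 k fun d => ρ d a := h.ρ
  have h3 : Bk (fun _ => D.Z.toPre) P.l (un 𝒟 _) 1 k j := h.j
  have h4 : Bk (N := fun d => En (Fin (n₀ d) × Fin (n₀ d))) (fun _ => D.Z.toPre) P.l (un 𝒟 _) 1 k
    fun d => (Md.mk (n₀ d) (c.J d) (p d) (ρ d) (j d)).pg := h.pg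
  exact ⟨(Cx.Pr.same P.tw.lw (Cx.Hk.of_Bk h1)).congr (e.mono fun _ _ e i => (e i).1),
    fun a => (Cx.Pr.same P.tw.lw (Cx.Hk.of_Bk (h2 a))).congr (e.mono fun _ _ e i => (e i).2.1 a),
    (Cx.Pr.same P.tw.lw (Cx.Hk.of_Bk h3)).congr (e.mono fun _ _ e i => (e i).2.2),
    (Cx.Pr.same P.tw.lw (Cx.Hk.of_Bk h4)).congr (e.mono fun _ _ e i =>
      pg_eq (e i).1 (e i).2.1 (e i).2.2)⟩

theorem ZB.elW (e : P.cx.Ev fun d x => ∀ i, (∀ a, W d a x = c.W d i a (P.tw.ψ d i x)) ∧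
      Φ d x = c.Φ d i (P.tw.ψ d i x)) :
    (∀ a, P.tw.EL (N := c.SA) k fun d i x => hsL (c.W d i a x)) ∧ P.tw.EL k c.Φ := by
  have h1 : ∀ a, Bk (N := c.SA) (fun _ => D.Z.toPre) P.l (un 𝒟 _) 1 k fun d x => hsL (W d a x) :=
    h.W
  have h2 : Bk (fun _ => D.Z.toPre) P.l (un 𝒟 _) 1 k Φ := h.Φ
  exact ⟨fun a => (Cx.Pr.same P.tw.lw (Cx.Hk.of_Bk (h1 a))).congr
    (e.mono fun _ _ e i => congrArg hsL ((e i).1 a)),
    (Cx.Pr.same P.tw.lw (Cx.Hk.of_Bk h2)).congr (e.mono fun _ _ e i => (e i).2)⟩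

end

namespace NP.NH
variable {𝒟 : Type*} {P : NP D 𝒟} {n₀ : 𝒟 → ℕ} {c : P.tw.CF n₀} {j n : ℕ} (h : NH c N j)
include h

theorem o1D : P.tw.EL (N := c.SV) j fun d i => oD (N.q1 (n := n) (P.K d i)) (c.c d i) :=
  h.q1D (nc h.o)

theorem o1C : P.tw.EL (N := c.S2) j fun d i => oC (N.q1 (n := n) (P.K d i)) (c.c d i) :=
  h.q1C (nc h.o)

theorem o2D (T : YW I3 Y) :
    P.tw.EL (N := c.SV) j fun d i => oD (N.q2 (n := n) (P.K d i) T.1) (c.c d i) := h.q2D T.2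

theorem o2C (T : YW I3 Y) :
    P.tw.EL (N := c.S2) j fun d i => oC (N.q2 (n := n) (P.K d i) T.1) (c.c d i) := h.q2C T.2

end NP.NH

theorem exists_C (hD : D.OK) : ∃ C, D.Z.Tame C ∧ ∀ a, D.Z.CBs (D.Z.D a Prod.snd) C := by
  obtain ⟨C, hC⟩ := Dec35.tame_Z hD
  obtain ⟨C', hC'⟩ := cbs_Dτ D
  have : ∀ a, D.Z.CBs (D.Z.D a D.nk.τ) C' := hC' D.nk
  rw [nk_τ] at this
  exact ⟨fun k => max (C k) (C' k), Cht98.Tame_mono hC fun _ => le_max_left _ _, fun a =>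
    ⟨(this a).1, fun k => CB_mono ((this a).2 k) (le_max_right _ _)⟩⟩

/-- the rate -/
def gm (N : ND Y lam) : ℝ := min (1 / 2) (2 * N.δ)

theorem gm_pos (hN : N.OK D) : 0 < gm N := lt_min one_half_pos (mul_pos two_pos hN.δ0)

theorem lw_exp {g m t : ℝ} (hg : 0 ≤ g) (hm : 0 < m) (s s' : ℝ) : 0 < m * exp (g * |s' - t|) ∧
    m * exp (g * |s - t|) ≤ exp (g * |s - s'|) * (m * exp (g * |s' - t|)) :=
  ⟨by positivity, by
    rw [mul_left_comm, ← exp_add, ← mul_add]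
    gcongr
    exact abs_sub_le _ _ _⟩

variable (D β) in
/-- pairs of variations -/
def D1 (γ : ℝ) (k : ℕ) (C : ℝ) : Type := {z : (Bool → Cz β) × ℝ × ℝ //
  (∀ i, Vb D β (z.1 i) ∧ D.Z.CB k (z.1 i) C) ∧ 0 < z.2.2 ∧
    ∀ s, Dec35.Lt D k (z.1 true - z.1 false) s (z.2.2 * exp (γ * |s - z.2.1|))}

variable (hD : D.OK) (hN : N.OK D) (β) (k : ℕ) (C : ℝ)

/-- the pairs of cylinders -/
@[reducible] def np1 : NP D (D1 D β (gm N / 8) k C) where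
  l := ⊤
  p _ := none
  q _ := none
  C := (exists_C hD).choose
  S _ _ := ⟨D.B, D.G⟩
  K _ _ := D.nk
  γ := gm N
  ρ d s := d.1.2.2 * exp (gm N / 8 * |s - d.1.2.1|)
  L := (exists_C hD).choose 0
  hD := hD
  tz := (exists_C hD).choose_spec.1
  cs := (exists_C hD).choose_spec.2
  tame := .of_forall fun _ _ => ⟨hD.G.vol, ⟨_, (exists_C hD).choose_spec.1⟩,
    Mp86.l4_of_tame (exists_C hD).choose_spec.1⟩
  sub := .of_forall fun _ _ _ => subset_rfl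
  γ0 := gm_pos hN
  γ1 := min_le_left _ _
  lw := .of_forall fun d => lw_exp (by linarith [gm_pos hN]) d.2.2.1
  off := .of_forall fun _ => ⟨by simp, by simp⟩

/-- the pairs of configurations -/
@[reducible] def cf1 : (np1 β hD hN k C).tw.CF fun _ => (cy β).m.N where
  r _ _ := 0
  J _ := (cy β).m.J
  p _ _ := (cy β).m.p
  ρ _ _ := (cy β).m.ρ
  j _ _ := (cy β).m.j
  W d i := (cf (cy β) (d.1.1 i)).W
  Φ d i := (cf (cy β) (d.1.1 i)).Φ
  z _ _ := (cy β).z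

variable {β k C} {V : Type} [NormedAddCommGroup V] [NormedSpace ℝ V]

theorem el1 {j : ℕ} {u : D1 D β (gm N / 8) k C → Bool → Y × ℝ → V}
    (hb : ∀ i, Bk (N := fun _ => V) (fun _ => D.Z.toPre) ⊤ (un _ _) 1 j fun d => u d i)
    {L : CL (Cv (cy β)) V} (hj : j ≤ k)
    (e : ∀ d x, u d true x - u d false x = L (d.1.1 true x - d.1.1 false x)) :
    (np1 β hD hN k C).tw.EL (N := fun _ => V) j u := by
  have b : (np1 β hD hN k C).cx.Bd (N := fun _ => Cv (cy β)) (np1 β hD hN k C).ρ j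
      fun d => d.1.1 true - d.1.1 false := ⟨0, le_rfl, 1, zero_le_one, .of_forall fun d x _ =>
    ⟨(mul_pos d.2.2.1 (exp_pos _)).le, ((Cb.sm (d.2.1 _).1.cb).sub (Cb.sm (d.2.1 _).1.cb)) x,
      fun w hw => (d.2.2.2 x.2 w (hw.trans hj) x.1).trans_eq (one_mul _).symm⟩⟩
  exact ⟨fun i => Cx.Hk.of_Bk (hb i), ((b.hk (np1 β hD hN k C).tw.lw).clm
    (T := fun _ => L) (.const _)).congr' fun d x => (e d x).symm⟩

theorem el0 {j : ℕ} {f : Y × ℝ → V} (h : D.Z.Cb f) :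
    (np1 β hD hN k C).tw.EL (N := fun _ => V) j fun _ _ => f :=
  Cx.Pr.same (np1 β hD hN k C).tw.lw (Cx.Hk.of_Bk (.of_Cb h))

include hD in
theorem zb1 (hβ : D.Adm β) (i : Bool) :
    ZB D.B D.G ⊤ k fun d : D1 D β (gm N / 8) k C => cf (cy β) (d.1.1 i) :=
  zb_cf (Dec35.bs_cyl hD hβ) (.of_forall fun d => ⟨(d.2.1 i).1.cb, (d.2.1 i).1.tg, (d.2.1 i).2⟩)

theorem gd1 (hβ : D.Adm β) : ∀ᶠ d in (np1 β hD hN k C).l, ∀ i, Gd ((np1 β hD hN k C).S d i).B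
    ((np1 β hD hN k C).S d i).G ((cf1 β hD hN k C).c d i) :=
  eventually_all.2 fun i => (zb1 hD hβ i).gd

theorem W1 (hβ : D.Adm β) (a : Option κ) : (np1 β hD hN k C).tw.EL (N := (cf1 β hD hN k C).SA) k
    fun d i x => hsL ((cf1 β hD hN k C).W d i a x) :=
  el1 hD hN (V := (cy β).m.A) (fun i => (zb1 hD hβ i).W a) (L := hsL ∘L oa a) le_rfl fun d x => by
    simp only [ContinuousLinearMap.comp_apply, ← map_sub]
    exact congrArg _ ((add_sub_add_left_eq_sub _ _ _).trans (map_sub (oa a) _ _).symm)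

theorem Φ1 (hβ : D.Adm β) : (np1 β hD hN k C).tw.EL k (cf1 β hD hN k C).Φ :=
  el1 hD hN (V := (cy β).m.V) (fun i => (zb1 hD hβ i).Φ) (L := fp) le_rfl fun _ _ =>
    (add_sub_add_left_eq_sub _ _ _).trans (map_sub fp _ _).symm

theorem nh1 (hβ : D.Adm β) (hk : 8 ≤ k) : NP.NH (cf1 β hD hN k C) N k := by
  have hb := Dec35.bs_cyl hD hβ
  have z1 := fun i => (zb1 hD (N := N) (k := k) (C := C) hβ i).of_le (j := 0 + 1) (by omega)
  have gd := gd1 hD hN (k := k) (C := C) hβ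
  choose K hK using fun i => bk_sup (z1 i).Φ
  obtain ⟨e1, e2, e3, e4⟩ := ZB.elm (P := np1 β hD hN k C) (c := cf1 β hD hN k C)
    (zb1 hD (N := N) hβ true) (.of_ev (.of_forall fun _ _ _ => ⟨rfl, fun _ => rfl, rfl⟩))
  refine NP.nh_of gd hk hN (min_le_right _ _) (W1 hD hN hβ) (Φ1 hD hN hβ)
    ⟨|K true| + |K false|, by positivity, (eventually_all.2 hK).mono fun d h i y =>
      (h i y).trans ((le_abs_self _).trans (by cases i <;> simp))⟩ e1 e2 e3 e4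
    (fun i => NP.cvS_sup gd ?_) fun i => NP.ewS_sup gd hN.δ0 ?_
  · exact ((z1 i).Fg hb.tame.choose_spec).imp fun _ h => h.mono fun _ h x _ => h x
  · exact (z1 i).nab.imp fun _ h => h.mono fun _ h a x _ => h a x

variable {W : Type} [NormedAddCommGroup W] [InnerProductSpace ℝ W] [FiniteDimensional ℝ W]
  {f : Cz β → Y × ℝ → W} {j : ℕ}

theorem lt_zero (a : Cz β) (k : ℕ) (s : ℝ) {m : ℝ} (hm : 0 ≤ m) : Dec35.Lt D k (a - a) s m :=
  fun w hw _ => PB.of_ev_zero (F := D.Z.toPre) k (.of_forall fun _ => sub_self _) hm w hw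

theorem out1 (h : (np1 β hD hN k C).tw.EL (N := fun _ => W) (j + 4) fun d i => f (d.1.1 i)) :
    ∃ K, (∀ a, Vb D β a → D.Z.CB k a C → Sm (IC I3) (f a) ∧ D.Z.CB j (f a) K) ∧
      ∀ a a' : Cz β, Vb D β a → Vb D β a' → D.Z.CB k a C → D.Z.CB k a' C → ∀ t m, 0 ≤ m →
      (∀ s, Dec35.Lt D k (a - a') s (m * exp (gm N / 8 * |s - t|))) →
      Dec35.Lt D j (f a - f a') t (K * m) := by
  obtain ⟨L, -, K, hK, h1⟩ := (h.b true).bd
  obtain ⟨L', -, K', hK', h2⟩ := h.d.bd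
  refine ⟨K + K', fun a ha hC => ?_, fun a a' ha ha' hC hC' t m hm hs w hw y =>
    le_of_forall_pos_le_add fun ε hε => ?_⟩
  · have e := fun x => (eventually_top.1 h1 ⟨(fun _ => a, 0, 1), fun _ => ⟨ha, hC⟩, one_pos,
      fun s => lt_zero a k s (by positivity)⟩ x ⟨by simp, by simp⟩).2
    exact ⟨fun x => (e x).1, CB_of_PB fun x => (e x).2.mono ((mul_one K).trans_le (by linarith))⟩
  · have p : 0 < ε / (K' + 1) := by positivity
    have e := (eventually_top.1 h2 ⟨(fun i => cond i a a', t, m + ε / (K' + 1)),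
      fun i => by cases i <;> exact ⟨‹_›, ‹_›⟩, by positivity, fun s w hw y => (hs s w hw y).trans
        (mul_le_mul_of_nonneg_right (by linarith) (exp_pos _).le)⟩ (y, t) ⟨by simp, by simp⟩).2.2 w hw
    refine e.trans ?_
    have e1 : K' * (ε / (K' + 1)) ≤ ε := by
      rw [mul_div_assoc', div_le_iff₀ (by positivity)]; nlinarith
    show K' * ((m + ε / (K' + 1)) * exp (gm N / 8 * |t - t|)) ≤ _
    rw [sub_self, abs_zero, mul_zero, exp_zero]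
    nlinarith [mul_nonneg hK hm]

variable (hβ : D.Adm β)
include hD hN hβ

omit hβ in
theorem te_of {τ : Pt (Y × ℝ) (Option κ) lam 0 0}
    (h : (np1 β hD hN k C).tw.EL (N := fun _ => (cy β).m.V) k fun d i => oD τ (cf (cy β) (d.1.1 i)))
    (h' : (np1 β hD hN k C).tw.EL (N := fun _ => Fm (Option κ × Option κ) (cy β).m.A) k
      fun d i => oC τ (cf (cy β) (d.1.1 i))) :
    (np1 β hD hN k C).tw.EL (N := fun _ => Dec35.Ev (cy β)) k fun d i => te τ (cy β) (d.1.1 i) :=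
  have e1 := h.clm (N' := fun _ => Dec35.Ev (cy β)) (L := fun _ => i1 _ _) (.const _)
  have e2 := h'.clm (N' := fun _ => Dec35.Ev (cy β)) (L := fun _ => i2 _ _) (.const _)
  (e1.add e2).congr' fun _ _ _ => rfl

theorem te1 (hk : 8 ≤ k) : (np1 β hD hN k C).tw.EL (N := fun _ => Dec35.Ev (cy β)) k
    fun d i => te (N.q1 (n := 0) D.nk) (cy β) (d.1.1 i) :=
  have h := nh1 hD hN (C := C) hβ hk
  te_of hD hN h.o1D h.o1C

theorem te2 (hk : 8 ≤ k) (T : YW I3 Y) : (np1 β hD hN k C).tw.EL (N := fun _ => Dec35.Ev (cy β)) k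
    fun d i => te (N.q2 (n := 0) D.nk T.1) (cy β) (d.1.1 i) :=
  have h := nh1 hD hN (C := C) hβ hk
  te_of hD hN (h.o2D T) (h.o2C T)

theorem gz_of (hk : 7 ≤ k) {A : Cz β → Y × ℝ → Fm (Option κ) (cy β).m.A} {A' : Cz β → Y × ℝ → (cy β).m.V}
    (h : (np1 β hD hN k C).tw.EL (N := fun _ => Fm (Option κ) (cy β).m.A) k fun d i => A (d.1.1 i))
    (h' : (np1 β hD hN k C).tw.EL (N := fun _ => (cy β).m.V) k fun d i => A' (d.1.1 i)) :
    (np1 β hD hN k C).tw.EL (N := fun _ => Cv (cy β)) k fun d i x =>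
      (mbd D.B (cy β).m).pC x (i1 _ _ (A (d.1.1 i) x) + i2 _ _ (A' (d.1.1 i) x)) :=
  have e1 := h.clm (N' := fun _ => Cv (cy β)) (L := fun _ => i1 _ _) (.const _)
  have e2 := h'.clm (N' := fun _ => Cv (cy β)) (L := fun _ => i2 _ _) (.const _)
  have e3 := el0 hD hN (β := β) (k := k) (C := C) (j := k) (V := CL (Cv (cy β)) (Cv (cy β)))
    (f := (mbd D.B (cy β).m).pC) (Dec35.bs_cyl hD hβ).cb_pC
  have e := e3.app (N := fun _ => Cv (cy β)) (N' := fun _ => Cv (cy β)) hk le_rfl (e1.add e2)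
  e

theorem gz1 (hk : 8 ≤ k) : (np1 β hD hN k C).tw.EL (N := fun _ => Cv (cy β)) k
    fun d i => Cyf70.gz N D β (d.1.1 i) :=
  have h := nh1 hD hN (C := C) hβ hk
  have e := gz_of hD hN hβ h.h7 (A := fun a => (N.dg D.nk).gA D.Z (cf (cy β) a))
    (A' := fun a => (N.dg D.nk).gP D.Z (cf (cy β) a)) (h.gA (NP.nc h.o)) (h.gP (NP.nc h.o))
  e

omit hβ in
theorem p1u_of {τ : Pt (Y × ℝ) (Option κ) lam 0 0} (h : ∀ k C, 8 ≤ k →
    (np1 β hD hN k C).tw.EL (N := fun _ => Dec35.Ev (cy β)) k fun d i => te τ (cy β) (d.1.1 i)) :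
    P1U D β (gm N / 8) {τ} ∧ ∀ k : ℕ, ∃ k' : ℕ, ∀ C : ℝ, ∃ K, ∀ a, Vb D β a → D.Z.CB k' a C →
      D.Z.CB k (te τ (cy β) a) K :=
  have e := fun k C => out1 hD hN (f := te τ (cy β)) (j := k)
    ((h (k + 8) C (by omega)).of_le (by omega))
  ⟨⟨fun _ hτ a ha => hτ ▸ let ⟨C, hC⟩ := ha.cb; ((e 0 (C 8)).choose_spec.1 a ha (hC.2 8)).1,
    fun k => ⟨k + 8, fun C => (e k C).imp fun _ h _ hτ => hτ ▸ h.2⟩⟩,
    fun k => ⟨k + 8, fun C => (e k C).imp fun _ h a ha hC => (h.1 a ha hC).2⟩⟩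

/-- **P1** (this is `Dec35.P1In D β N`) -/
theorem p1In : ∃ γ > 0, P1U D β γ {N.q1 D.nk} ∧ ∀ T : YW I3 Y, P1U D β γ {N.q2 D.nk T.1} :=
  ⟨gm N / 8, by linarith [gm_pos hN], (p1u_of hD hN fun _ _ => te1 hD hN hβ).1,
    fun T => (p1u_of hD hN fun _ _ h => te2 hD hN hβ h T).1⟩

/-- the neck terms are bounded on the cylinder -/
theorem bdZ1 (k : ℕ) : ∃ k' : ℕ, ∀ C : ℝ, ∃ K, ∀ a, Vb D β a → D.Z.CB k' a C →
    D.Z.CB k (te (N.q1 (n := 0) D.nk) (cy β) a) K := (p1u_of hD hN fun _ _ => te1 hD hN hβ).2 k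

theorem bdZ2 (T : YW I3 Y) (k : ℕ) : ∃ k' : ℕ, ∀ C : ℝ, ∃ K, ∀ a, Vb D β a → D.Z.CB k' a C →
    D.Z.CB k (te (N.q2 (n := 0) D.nk T.1) (cy β) a) K := (p1u_of hD hN fun _ _ h => te2 hD hN hβ h T).2 k

theorem p1g : Cyf70.P1g N D β := ⟨gm N / 8, by linarith [gm_pos hN], 8, fun C =>
  (out1 hD hN (f := Cyf70.gz N D β) (j := 0) ((gz1 hD hN hβ le_rfl).of_le (by omega))).imp
    fun _ h a a' ha ha' hC hC' t m hm hs y => h.2 a a' ha ha' hC hC' t m hm hs [] le_rfl y⟩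

omit hD hN hβ in
/-- **KP-P1** -/
theorem p1Stmt : Cyf70.P1Stmt I3 Y κ lam := fun _ _ _ h => p1g h.ok h.nd h.adm

end Crest.Agent.X212.Rsv69
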