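import Crest.Agent.X212.Dec35.Jp
import Crest.Agent.X212.Rsv69.Lc

/-! Row 212, RESP (helper69): the plug. -/

set_option autoImplicit false

namespace Crest.Agent.X212.Rsv69

/-- **RSP** -/
theorem rsp (κ lam : Type) [Fintype κ] [Fintype lam] : Dec35.Rsp κ lam := fun _ _ =>
  ⟨p1Stmt, fun _ _ _ hD hN hβ => ⟨p1In hD hN hβ, loc hD hN hβ⟩⟩

end Crest.Agent.X212.Rsv69
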