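import Crest.Agent.X212.Rsp69.Tw

/-! Row 212, RESP (helper69): two manifolds which contain the same band; the word engine. -/

set_option autoImplicit false
set_option linter.unusedSectionVars false
noncomputable section
open scoped Manifold ContDiff Topology InnerProductSpace
open MeasureTheory Set Function Filter Real

namespace Crest.Agent.X212.Rsv69
open Rsp69
open An Sob92 Wz78 Dgr80
open Mp86 (Mc)
open Pj41 (FRel)

section lin
variable {U V : Type} [NormedAddCommGroup U] [InnerProductSpace ℝ U] [CompleteSpace U]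
  [NormedAddCommGroup V] [InnerProductSpace ℝ V] [CompleteSpace V]

variable {α : Type} [Fintype α] [DecidableEq α]

theorem norm_sgl (a : α) : ‖sgl V a‖ ≤ 1 := ContinuousLinearMap.opNorm_le_bound _ zero_le_one
  fun v => ((PiLp.norm_single 2 (fun _ : α => V) a v).trans (one_mul _).symm).le

theorem norm_proj (a : α) : ‖(PiLp.proj 2 (fun _ : α => V) a : CL (Fm α V) V)‖ ≤ 1 :=
  ContinuousLinearMap.opNorm_le_bound _ zero_le_one fun v => by
    simpa using PiLp.norm_apply_le v a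

end lin

variable {E : Type} [NormedAddCommGroup E] [NormedSpace ℝ E] [FiniteDimensional ℝ E]
  [MeasurableSpace E] [BorelSpace E]
  {HM : Type} [TopologicalSpace HM] {I : ModelWithCorners ℝ E HM} [I.Boundaryless]
  {M : Type} [TopologicalSpace M] [ChartedSpace HM M] [IsManifold I ∞ M]
  [MeasurableSpace M] [T2Space M] [BorelSpace M] [SecondCountableTopology M]
  {ι : Type} [Fintype ι] {𝒟 : Type*} {lam : Type} [Fintype lam]

/-- two tame manifolds with a uniform `L⁴` bound which contain the band of `X` -/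
structure Tw (X : Cx I M ι 𝒟) (lam : Type) [Fintype lam] where
  S : 𝒟 → Bool → Mf ι lam
  ψ : ∀ d i, OpenPartialHomeomorph M (S d i).M
  κ : ℝ
  ρ : 𝒟 → ℝ → ℝ
  L : ℝ
  rt : X.Rt κ ρ
  iso : ∀ᶠ d in X.l, (X.F d).IsVol ∧ ∀ i, An.Iso (X.F d).toPre (S d i).G.F.toPre (ψ d i) ∧
    (S d i).G.F.IsVol ∧ (∃ C, (S d i).G.F.Tame C) ∧ Mp86.L4 (S d i).G.F.toPre L
  src : X.Ev fun d x => ∀ i, x ∈ (ψ d i).source

namespace Tw
open Rsp69.Cx
variable {X : Cx I M ι 𝒟} (T : Tw X lam) {k n j : ℕ}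
  {V W : 𝒟 → Type} [∀ d, NormedAddCommGroup (V d)] [∀ d, InnerProductSpace ℝ (V d)]
  [∀ d, NormedAddCommGroup (W d)] [∀ d, InnerProductSpace ℝ (W d)]
  {N N' N'' : 𝒟 → Type} [∀ d, NormedAddCommGroup (N d)] [∀ d, NormedSpace ℝ (N d)]
  [∀ d, NormedAddCommGroup (N' d)] [∀ d, NormedSpace ℝ (N' d)]
  [∀ d, NormedAddCommGroup (N'' d)] [∀ d, NormedSpace ℝ (N'' d)]

/-- the frames -/
abbrev F (d : 𝒟) (i : Bool) : Fr (T.S d i).I (T.S d i).M ι := (T.S d i).G.F

/-- pairs of sections -/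
abbrev Sc (N : 𝒟 → Type) : Type _ := ∀ d i, (T.S d i).M → N d

/-- pairs of functions -/
abbrev Fn : Type _ := T.Sc fun _ => ℝ

/-- close on the band -/
def EL (k : ℕ) (u : T.Sc N) : Prop := X.Pr T.ρ k fun d i x => u d i (T.ψ d i x)

/-- uniformly bounded -/
def U (u : T.Sc N) : Prop := ∃ K, 0 ≤ K ∧ ∀ᶠ d in X.l, ∀ i y, ‖u d i y‖ ≤ K

/-- in the class `Q`, uniformly bounded and close on the band -/
structure EP (Q : ∀ d i, ((T.S d i).M → N d) → Prop) (k : ℕ) (s : T.Sc N) : Prop where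
  q : ∀ᶠ d in X.l, ∀ i, Q d i (s d i)
  u : T.U s
  el : T.EL k s

/-- the class of sections with bounded derivatives -/
abbrev EC (k : ℕ) (u : T.Sc N) : Prop := T.EP (fun d i => (T.F d i).Cb) k u

variable {T} {u v : T.Sc N}

theorem lw : X.Lw (T.κ / 8) T.ρ := T.rt.lw

theorem rel : X.Ev fun d x => (X.F d).IsVol ∧ ∀ i, FRel (X.F d) (T.F d i) (T.ψ d i) (T.ψ d i).source ∧
    x ∈ (T.ψ d i).source ∧ (T.F d i).IsVol :=
  ((Ev.of_ev (P := fun _ _ => _) (T.iso.mono fun _ h _ => h)).and T.src).mono fun _ _ h =>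
    ⟨h.1.1, fun i => ⟨Pj41.fRel_of_iso (h.1.2 i).1, h.2 i, (h.1.2 i).2.1⟩⟩

theorem tame : ∀ᶠ d in X.l, ∀ i, ∃ C, (T.F d i).Tame C := T.iso.mono fun _ h i => (h.2 i).2.2.1

theorem l4 : ∀ᶠ d in X.l, ∀ i, Mp86.L4 (T.F d i).toPre T.L := T.iso.mono fun _ h i => (h.2 i).2.2.2

/-- global bounds give bounds on the band -/
theorem hk_of_CB {i : Bool} {C : ℝ}
    (h : ∀ᶠ d in X.l, Sm (T.S d i).I (u d i) ∧ (T.F d i).CB k (u d i) C) :
    X.Hk 1 k fun d x => u d i (T.ψ d i x) := by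
  obtain ⟨L, hL, h1⟩ := T.rel
  refine Bd.hk lw_one ⟨L, hL, |C|, abs_nonneg _, (h.and h1).mono fun d h x hx =>
    ⟨zero_le_one, ((h.2 x hx).2 i).1.sm ((h.2 x hx).2 i).2.1 (h.1.1 _), fun w hw => ?_⟩⟩
  rw [((h.2 x hx).2 i).1.Dw ((h.2 x hx).2 i).2.1 w (u' := u d i) (.of_forall fun _ => rfl)]
  simpa using CB_abs h.1.2 w hw _

theorem U.hk (h : T.U u) (hs : ∀ᶠ d in X.l, ∀ i, Sm (T.S d i).I (u d i)) (i : Bool) :
    X.Hk 1 0 fun d x => u d i (T.ψ d i x) :=
  let ⟨_, _, h⟩ := h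
  hk_of_CB ((h.and hs).mono fun _ h => ⟨h.2 i, CB_zero.2 (h.1 i)⟩)

namespace U

theorem congr (h : T.U u) (e : ∀ᶠ d in X.l, ∀ i, u d i = v d i) : T.U v :=
  let ⟨K, hK, h⟩ := h
  ⟨K, hK, (h.and e).mono fun _ h i => h.2 i ▸ h.1 i⟩

theorem bil {B : ∀ d, N d →L[ℝ] N' d →L[ℝ] N'' d} (hB : Ub X.l fun d => ‖B d‖) (h : T.U u)
    {v : T.Sc N'} (h' : T.U v) : T.U fun d i x => B d (u d i x) (v d i x) :=
  let ⟨K, hK, h⟩ := h; let ⟨K', hK', h'⟩ := h'; let ⟨C, hC, hB⟩ := hB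
  ⟨C * K * K', by positivity, ((h.and h').and hB).mono fun d h i y =>
    ((B d).le_opNorm₂ _ _).trans (by gcongr; exacts [h.2, h.1.1 i y, h.1.2 i y])⟩

theorem add (h : T.U u) (h' : T.U v) : T.U fun d i x => u d i x + v d i x :=
  let ⟨K, hK, h⟩ := h; let ⟨K', hK', h'⟩ := h'
  ⟨K + K', by positivity, (h.and h').mono fun _ h i y => norm_add_le_of_le (h.1 i y) (h.2 i y)⟩

theorem const {c : ∀ d, N d} (h : Ub X.l fun d => ‖c d‖) : T.U fun d _ _ => c d :=
  let ⟨K, hK, h⟩ := h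
  ⟨K, hK, h.mono fun _ h _ _ => h⟩

end U

namespace EL

theorem congr (h : T.EL k u) (e : ∀ᶠ d in X.l, ∀ i, u d i = v d i) : T.EL k v :=
  Pr.congr h (.of_ev (e.mono fun _ e _ i => by rw [e i]))

theorem congr' (h : T.EL k u) (e : ∀ d i x, u d i x = v d i x) : T.EL k v :=
  h.congr (.of_forall fun d i => funext (e d i))

theorem of_le (h : T.EL k u) (hj : j ≤ k) : T.EL j u := Pr.of_le h hj

theorem add (h : T.EL k u) (h' : T.EL k v) : T.EL k fun d i x => u d i x + v d i x := Pr.add h h'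

theorem sub (h : T.EL k u) (h' : T.EL k v) : T.EL k fun d i x => u d i x - v d i x := Pr.sub h h'

theorem neg (h : T.EL k u) : T.EL k fun d i x => -u d i x := Pr.neg h

theorem zero : T.EL k fun d _ _ => (0 : N d) := Pr.zero lw

theorem sum {α : Type*} (s : Finset α) {u : α → T.Sc N} (h : ∀ a ∈ s, T.EL k (u a)) :
    T.EL k fun d i x => ∑ a ∈ s, u a d i x := Pr.sum lw s h

theorem clm {L : ∀ d, N d →L[ℝ] N' d} (hL : Ub X.l fun d => ‖L d‖) (h : T.EL k u) :
    T.EL k fun d i x => L d (u d i x) := Pr.clm hL h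

theorem bil (hn : 7 ≤ n) (hk : k ≤ n) {B : ∀ d, N d →L[ℝ] N' d →L[ℝ] N'' d}
    (hB : Ub X.l fun d => ‖B d‖) (h : T.EL n u) {v : T.Sc N'} (h' : T.EL k v) :
    T.EL k fun d i x => B d (u d i x) (v d i x) := Pr.bilR hn hk hB h h'

theorem app (hn : 7 ≤ n) (hk : k ≤ n) {A : T.Sc fun d => N d →L[ℝ] N' d} (h : T.EL n A)
    (h' : T.EL k u) : T.EL k fun d i x => A d i x (u d i x) := Pr.app hn hk h h'

theorem smul (hn : 7 ≤ n) (hk : k ≤ n) {f : T.Fn} (h : T.EL n f) (h' : T.EL k u) :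
    T.EL k fun d i x => f d i x • u d i x := Pr.smul hn hk h h'

theorem inner (hn : 7 ≤ n) {u v : T.Sc V} (h : T.EL n u) (h' : T.EL n v) :
    T.EL (N := fun _ => ℝ) n fun d i x => ⟪u d i x, v d i x⟫_ℝ :=
  bil hn le_rfl (B := fun d => innerSL ℝ (E := V d)) (.of_le 1 fun _ => norm_innerSL_le ℝ) h h'

theorem comp {P Q : Type} [NormedAddCommGroup P] [InnerProductSpace ℝ P] [FiniteDimensional ℝ P]
    [NormedAddCommGroup Q] [NormedSpace ℝ Q] {φ : P → Q} (hφ : ContDiff ℝ ∞ φ) (hn : 8 ≤ n)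
    {u : T.Sc fun _ => P} (h : T.EL n u) : T.EL (N := fun _ => Q) n fun d i x => φ (u d i x) :=
  Pr.comp lw hφ hn h

theorem toLp {α : Type} [Fintype α] [∀ d, CompleteSpace (V d)] {u : α → T.Sc V}
    (h : ∀ a, T.EL k (u a)) :
    T.EL (N := fun d => Fm α (V d)) k fun d i x => WithLp.toLp 2 fun a => u a d i x := by
  classical
  exact (sum Finset.univ fun a _ => (h a).clm (L := fun d => sgl (V d) a)
    (.of_le 1 fun _ => norm_sgl a)).congr' fun _ _ _ => sum_sgl _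

theorem proj {α : Type} [Fintype α] [∀ d, CompleteSpace (V d)] {u : T.Sc fun d => Fm α (V d)}
    (h : T.EL k u) (a : α) : T.EL k fun d i x => u d i x a := by
  classical
  exact h.clm (L := fun d => PiLp.proj 2 (fun _ => V d) a) (.of_le 1 fun _ => norm_proj a)

theorem D (h : T.EL (k + 1) u) (a : ι) : T.EL k fun d i => (T.F d i).D a (u d i) :=
  (Pr.D h a).congr (T.rel.mono fun _ _ h i => (h.2 i).1.D (h.2 i).2.1 a (.of_forall fun _ => rfl))

theorem nab (hn : 7 ≤ n) (hk : k ≤ n) {A : ∀ d i, ι → (T.S d i).M → N d →L[ℝ] N d}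
    (hA : ∀ a, T.EL n fun d i => A d i a) (h : T.EL (k + 1) u) (a : ι) :
    T.EL k fun d i => Wz78.nab (T.S d i).I (T.F d i).e (A d i) a (u d i) :=
  (h.D a).add ((hA a).app hn hk (h.of_le k.le_succ))

/-- **the resolvent step** -/
theorem res (hn : 7 ≤ n) (hk : k ≤ n) {A : ∀ d i, ι → (T.S d i).M → V d →L[ℝ] V d}
    (hA : ∀ a, T.EL (n + 1) fun d i => A d i a) {s R : T.Sc V}
    (h : ∀ᶠ d in X.l, ∀ i, (∀ a x, Skew (A d i a x)) ∧ (T.F d i).IsRes (A d i) (s d i) (R d i))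
    (h0 : ∀ i, X.Hk 1 0 fun d x => R d i (T.ψ d i x)) (hs : T.EL k s) : T.EL (k + 2) R :=
  Pr.res (A := fun d i a x => A d i a (T.ψ d i x)) T.rt hn hk hA
    (.of_ev (h.mono fun _ h _ i a => (h i).1 a _))
    ((T.rel.and (.of_ev (P := fun d _ => _) (h.mono fun _ h _ => h))).mono fun _ _ h i => by
      rw [(h.1.2 i).1.lap (h.1.2 i).2.1 h.1.1 (h.1.2 i).2.2 (fun _ => .of_forall fun _ => rfl)
        (.of_forall fun _ => rfl)]
      exact (h.2 i).2.2.2 _) h0 hs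

end EL

namespace EP
variable {Q : ∀ d i, ((T.S d i).M → N d) → Prop}

theorem congr (h : T.EP Q k u) (e : ∀ᶠ d in X.l, ∀ i, u d i = v d i) : T.EP Q k v :=
  ⟨(h.q.and e).mono fun _ h i => h.2 i ▸ h.1 i, h.u.congr e, h.el.congr e⟩

theorem congr' (h : T.EP Q k u) (e : ∀ d i x, u d i x = v d i x) : T.EP Q k v :=
  h.congr (.of_forall fun d i => funext (e d i))

theorem of_le (h : T.EP Q k u) (hj : j ≤ k) : T.EP Q j u := ⟨h.q, h.u, h.el.of_le hj⟩

theorem imp {Q' : ∀ d i, ((T.S d i).M → N d) → Prop} (h : T.EP Q k u)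
    (e : ∀ᶠ d in X.l, ∀ i, Q' d i (u d i)) : T.EP Q' k u := ⟨e, h.u, h.el⟩

end EP

namespace EC

/-- uniformly bounded fields which agree on the band -/
theorem fixed {C : ℕ → ℝ} (h : ∀ᶠ d in X.l, ∀ i, (T.F d i).CBs (u d i) C)
    (e : X.Ev fun d x => u d true (T.ψ d true x) = u d false (T.ψ d false x)) : T.EC k u :=
  ⟨h.mono fun _ h i => ⟨C, h i⟩, ⟨|C 0|, abs_nonneg _, h.mono fun _ h i =>
    CB_bound (CB_abs ((h i).2 0))⟩,
    Pr.of_eq lw (fun i => hk_of_CB (h.mono fun _ h => ⟨(h i).1, (h i).2 k⟩)) e⟩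

theorem const {c : ∀ d, N d} (h : Ub X.l fun d => ‖c d‖) : T.EC k fun d _ _ => c d :=
  ⟨.of_forall fun _ _ => Cb_const _, .const h, Pr.same lw (Hk.const h)⟩

theorem add (h : T.EC k u) (h' : T.EC k v) : T.EC k fun d i x => u d i x + v d i x :=
  ⟨(h.q.and h'.q).mono fun _ h i => Cb.add (h.1 i) (h.2 i), h.u.add h'.u, h.el.add h'.el⟩

theorem bil (hn : 7 ≤ n) (hk : k ≤ n) {B : ∀ d, N d →L[ℝ] N' d →L[ℝ] N'' d}
    (hB : Ub X.l fun d => ‖B d‖) (h : T.EC n u) {v : T.Sc N'} (h' : T.EC k v) :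
    T.EC k fun d i x => B d (u d i x) (v d i x) :=
  ⟨(h.q.and h'.q).mono fun _ h i => Cb_bil _ (h.1 i) (h.2 i), h.u.bil hB h'.u,
    h.el.bil hn hk hB h'.el⟩

theorem app (hn : 7 ≤ n) (hk : k ≤ n) {A : T.Sc fun d => N d →L[ℝ] N' d} (h : T.EC n A)
    (h' : T.EC k u) : T.EC k fun d i x => A d i x (u d i x) :=
  bil hn hk (B := fun d => ContinuousLinearMap.id ℝ (N d →L[ℝ] N' d))
    (.of_le 1 fun _ => ContinuousLinearMap.norm_id_le) h h'

theorem smul (hn : 7 ≤ n) (hk : k ≤ n) {f : T.Fn} (h : T.EC n f) (h' : T.EC k u) :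
    T.EC k fun d i x => f d i x • u d i x :=
  bil hn hk (B := fun d => ContinuousLinearMap.lsmul ℝ ℝ (E := N d))
    (.of_le 1 fun _ => ContinuousLinearMap.opNorm_lsmul_le) h h'

theorem clm {L : ∀ d, N d →L[ℝ] N' d} (hL : Ub X.l fun d => ‖L d‖) (h : T.EC k u) :
    T.EC k fun d i x => L d (u d i x) := app (n := k + 7) (by omega) (by omega) (const hL) h

theorem neg (h : T.EC k u) : T.EC k fun d i x => -u d i x :=
  h.clm (L := fun d => -ContinuousLinearMap.id ℝ (N d))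
    (.of_le 1 fun _ => by simpa using ContinuousLinearMap.norm_id_le)

theorem sub (h : T.EC k u) (h' : T.EC k v) : T.EC k fun d i x => u d i x - v d i x := by
  simpa only [sub_eq_add_neg] using h.add h'.neg

theorem sum {α : Type*} (s : Finset α) {u : α → T.Sc N} (h : ∀ a ∈ s, T.EC k (u a)) :
    T.EC k fun d i x => ∑ a ∈ s, u a d i x := by
  classical
  induction s using Finset.induction_on with
  | empty => simpa using const (c := fun d => (0 : N d)) (.of_le 0 fun _ => by simp)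
  | insert a s ha ih =>
    simp only [Finset.sum_insert ha]
    exact (h a (Finset.mem_insert_self _ _)).add (ih fun i hi => h i (Finset.mem_insert_of_mem hi))

theorem inner (hn : 7 ≤ n) {u v : T.Sc V} (h : T.EC n u) (h' : T.EC n v) :
    T.EC (N := fun _ => ℝ) n fun d i x => ⟪u d i x, v d i x⟫_ℝ :=
  bil hn le_rfl (B := fun d => innerSL ℝ (E := V d)) (.of_le 1 fun _ => norm_innerSL_le ℝ) h h'

theorem comp {P Q : Type} [NormedAddCommGroup P] [InnerProductSpace ℝ P] [FiniteDimensional ℝ P]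
    [NormedAddCommGroup Q] [NormedSpace ℝ Q] {φ : P → Q} (hφ : ContDiff ℝ ∞ φ) (hn : 8 ≤ n)
    {u : T.Sc fun _ => P} (h : T.EC n u) : T.EC (N := fun _ => Q) n fun d i x => φ (u d i x) := by
  refine ⟨h.q.mono fun _ h i => Cb_nem hφ (h i), ?_, h.el.comp hφ hn⟩
  obtain ⟨K, -, h⟩ := h.u
  have := FiniteDimensional.proper_real P
  obtain ⟨C, hC⟩ := (isCompact_closedBall (0 : P) K).exists_bound_of_continuousOn
    hφ.continuous.continuousOn
  exact ⟨|C|, abs_nonneg _, h.mono fun d h i y => (hC _ (by simpa using h i y)).trans (le_abs_self C)⟩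

end EC

/-! ### words -/

/-- families of lists all of whose letters lie in the class `P` -/
inductive Fa {β : 𝒟 → Bool → Type} (P : (∀ d i, β d i) → Prop) : (∀ d i, List (β d i)) → Prop
  | nil : Fa P fun _ _ => []
  | cons {t w} : P t → Fa P w → Fa P fun d i => t d i :: w d i

section fa
variable {β γ : 𝒟 → Bool → Type} {P : (∀ d i, β d i) → Prop} {P' : (∀ d i, γ d i) → Prop}
  {w w' : ∀ d i, List (β d i)}

theorem Fa.list {α : Type} {L : α → ∀ d i, β d i} :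
    ∀ {u : List α}, (∀ a ∈ u, P (L a)) → Fa P fun d i => u.map fun a => L a d i
  | [], _ => .nil
  | a :: _, h => .cons (h a List.mem_cons_self) (list fun b hb => h b (List.mem_cons_of_mem a hb))

theorem Fa.map (h : Fa P w) {f : ∀ d i, β d i → γ d i} (e : ∀ t, P t → P' fun d i => f d i (t d i)) :
    Fa P' fun d i => (w d i).map (f d i) := by
  induction h with
  | nil => exact .nil
  | cons ht _ ih => exact .cons (e _ ht) ih

theorem Fa.append (h : Fa P w) (h' : Fa P w') : Fa P fun d i => w d i ++ w' d i := by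
  induction h with
  | nil => exact h'
  | cons ht _ ih => exact .cons ht ih

end fa

variable [∀ d, CompleteSpace (V d)] {Q : ∀ d i, ((T.S d i).M → V d) → Prop}

variable (T) in
/-- fields of operators that act on the class -/
def Ap (Q : ∀ d i, ((T.S d i).M → V d) → Prop) (n : ℕ) (B : T.Sc fun d => CL (V d) (V d)) : Prop :=
  ∀ w, T.EP Q n w → T.EP Q n fun d i x => B d i x (w d i x)

variable (T) in
/-- admissible semantic letters -/
def SLk (Q : ∀ d i, ((T.S d i).M → V d) → Prop) (n : ℕ) (L : ∀ d i, SL (T.S d i).M (V d)) : Prop :=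
  (∃ B, (L = fun d i => .op (B d i)) ∧ T.Ap Q n B ∧
    T.Ap Q n fun d i x => ContinuousLinearMap.adjoint (B d i x)) ∨ L = fun _ _ => .G

theorem SLk.op (hn : 7 ≤ n) {B : T.Sc fun d => CL (V d) (V d)} (h : T.EC n B) :
    T.SLk (fun d i => (T.F d i).Cb) n fun d i => .op (B d i) :=
  .inl ⟨_, rfl, fun _ => h.app hn le_rfl, fun _ =>
    (h.clm (L := fun d => adjL (V d) (V d)) (.of_le 1 fun _ => norm_adjL)).app hn le_rfl⟩

variable (T) in
/-- pairs of connections, with a class on which the resolvent is a true solution -/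
structure Eng (Q : ∀ d i, ((T.S d i).M → V d) → Prop) (n : ℕ)
    (A : ∀ d i, ι → (T.S d i).M → CL (V d) (V d)) : Prop where
  hn : 8 ≤ n
  el : ∀ a, T.EL n fun d i => A d i a
  cls : ∀ᶠ d in X.l, ∀ i, Mc (T.S d i).I (A d i) ∧ Cls (T.F d i) (A d i) (Q d i)

namespace Eng
variable {A : ∀ d i, ι → (T.S d i).M → CL (V d) (V d)} (h : T.Eng Q n A) {u v l s : T.Sc V}
  {L : ∀ d i, SL (T.S d i).M (V d)} {w : ∀ d i, List (SL (T.S d i).M (V d))}
include h

theorem h7 : 7 ≤ n := h.hn.trans' (by omega)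

theorem res' (hk : k + 1 ≤ n) (hq : ∀ᶠ d in X.l, ∀ i, Q d i (s d i)) (hs : T.EL k s)
    (h0 : ∀ i, X.Hk 1 0 fun d x => (T.F d i).res (A d i) (s d i) (T.ψ d i x)) :
    T.EL (k + 2) fun d i => (T.F d i).res (A d i) (s d i) := by
  have := h.hn
  obtain ⟨n, rfl⟩ : ∃ m, n = m + 1 := ⟨n - 1, by omega⟩
  exact EL.res (by omega) (by omega) h.el
    ((h.cls.and hq).mono fun _ h i => ⟨(h.1 i).1.sk, (h.1 i).2.res _ (h.2 i)⟩) h0 hs

theorem resU (hs : T.U s) : T.U fun d i => (T.F d i).res (A d i) (s d i) :=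
  let ⟨K, hK, hs⟩ := hs
  ⟨K, hK, ((hs.and h.cls).and T.tame).mono fun _ h i =>
    Mp86.norm_res_le (Mp86.bumps_of_tame _ (h.2 i).choose_spec) (h.1.2 i).1 (h.1.1 i)⟩

theorem resQ (hq : ∀ᶠ d in X.l, ∀ i, Q d i (s d i)) :
    ∀ᶠ d in X.l, ∀ i, Q d i ((T.F d i).res (A d i) (s d i)) :=
  (h.cls.and hq).mono fun _ h i => (h.1 i).2.G _ (h.2 i)

theorem res (hs : T.EP Q n s) : T.EP Q (n + 1) fun d i => (T.F d i).res (A d i) (s d i) := by
  have := h.hn
  obtain ⟨n, rfl⟩ : ∃ m, n = m + 1 := ⟨n - 1, by omega⟩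
  exact ⟨h.resQ hs.q, h.resU hs.u, h.res' le_rfl hs.q (hs.el.of_le n.le_succ)
    ((h.resU hs.u).hk (.of_forall fun _ _ => Mp86.sm_res _ _ _))⟩

theorem sl (hL : T.SLk Q n L) (hu : T.EP Q n u) :
    T.EP Q n fun d i => sl (T.F d i) (A d i) (L d i) (u d i) := by
  rcases hL with ⟨B, rfl, h1, -⟩ | rfl
  · exact h1 _ hu
  · exact (h.res hu).of_le n.le_succ

theorem slT (hL : T.SLk Q n L) (hu : T.EP Q n u) :
    T.EP Q n fun d i => slT (T.F d i) (A d i) (L d i) (u d i) := by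
  rcases hL with ⟨B, rfl, -, h1⟩ | rfl
  · exact h1 _ hu
  · exact (h.res hu).of_le n.le_succ

theorem wd (hw : Fa (T.SLk Q n) w) (hs : T.EP Q n s) :
    T.EP Q n fun d i => Wrd81.wd (Dgr80.sl (T.F d i) (A d i)) (s d i) (w d i) := by
  induction hw with
  | nil => exact hs
  | cons ht _ ih => exact h.sl ht ih

theorem bk (hw : Fa (T.SLk Q n) w) : ∀ {l}, T.EP Q n l →
    T.EP Q n fun d i => bk (T.F d i) (A d i) (w d i) (l d i) := by
  induction hw with
  | nil => exact id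
  | cons ht _ ih => exact fun hl => ih (h.slT ht hl)

variable [∀ d, CompleteSpace (W d)] {r : ∀ d, CL (W d) (CL (V d) (V d))}
  (hr : Ub X.l fun d => ‖r d‖)
include hr

theorem cur (hv : T.EL (n + 1) v) (hl : T.EL (n + 1) l) : T.EL (N := fun d => Fm ι (W d)) n
    fun d i => cur (T.F d i) (A d i) (r d) (v d i) (l d i) :=
  have hr' : Ub X.l fun d => ‖tpL (r d)‖ :=
    let ⟨K, hK, hr⟩ := hr; ⟨K, hK, hr.mono fun _ h => (norm_tpL _).trans h⟩
  EL.toLp fun a => ((hv.of_le n.le_succ).bil h.h7 le_rfl hr' (hl.nab h.h7 le_rfl h.el a)).add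
    ((hl.of_le n.le_succ).bil h.h7 le_rfl hr' (hv.nab h.h7 le_rfl h.el a))

theorem gc (hs : T.EP Q n s) (hw : Fa (T.SLk Q n) w) : ∀ {l}, T.EP Q n l →
    T.EL (N := fun d => Fm ι (W d)) n
      fun d i => gc (T.F d i) (A d i) (r d) (s d i) (w d i) (l d i) := by
  induction hw with
  | nil => exact fun _ => EL.zero
  | cons ht hw ih =>
    intro l hl
    have h1 := ih (h.slT ht hl)
    rcases ht with ⟨B, rfl, -⟩ | rfl
    · exact h1
    · exact h1.sub (h.cur hr (h.res (h.wd hw hs)).el (h.res hl).el)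

end Eng

end Tw

end Crest.Agent.X212.Rsv69
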